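import Vale.Agent.P167.H634.Apx.Chain

/-!
# P167, general `q`: polygons of the square lattice close to a Jordan curve, part 2
-/

set_option autoImplicit false

namespace Vale.Agent.P167.H634.Apx

open Set Metric
open Vale.Agent.P167.E6 (IsPolygon dir pt)
open Vale.Agent.P153.R2.R1 (JCurve per_int)
open Vale.Agent.P167.H634.Sch (exists_fix)

theorem mod_succ {n : ℕ} (hn : 0 < n) (m : ℕ) :
    (m % n + 1 < n ∧ (m + 1) % n = m % n + 1 ∧ (m + 1) / n = m / n) ∨
      (m % n + 1 = n ∧ (m + 1) % n = 0 ∧ (m + 1) / n = m / n + 1) := by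
  have h1 := Nat.mod_lt m hn
  have h2 : m + 1 = (m % n + 1) + n * (m / n) := by
    have := Nat.mod_add_div m n
    omega
  rcases lt_or_ge (m % n + 1) n with h | h
  · left
    refine ⟨h, ?_, ?_⟩
    · conv_lhs => rw [h2]
      rw [Nat.add_mul_mod_self_left, Nat.mod_eq_of_lt h]
    · conv_lhs => rw [h2]
      rw [Nat.add_mul_div_left _ _ hn, Nat.div_eq_of_lt h, zero_add]
  · right
    have h3 : m % n + 1 = n := le_antisymm h1 h
    refine ⟨h3, ?_, ?_⟩
    · rw [h2, h3, Nat.add_mul_mod_self_left, Nat.mod_self]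
    · rw [h2, h3, Nat.add_mul_div_left _ _ hn, Nat.div_self hn, add_comm]

/-- The last index before a level. -/
theorem exists_level {f : ℕ → ℝ} {x : ℝ} {n : ℕ} (h0 : f 0 ≤ x) (hn : x < f n) :
    ∃ a < n, f a ≤ x ∧ x < f (a + 1) := by
  induction n with
  | zero => exact absurd hn (not_lt.2 h0)
  | succ n ih =>
    rcases le_or_gt (f n) x with h | h
    · exact ⟨n, Nat.lt_succ_self n, h, hn⟩
    · obtain ⟨a, ha, h1, h2⟩ := ih h
      exact ⟨a, by omega, h1, h2⟩

/-- **Polygons of the square lattice close to a Jordan curve.** -/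
theorem exists_polygon {c : ℝ → ℂ} (hJ : JCurve c (2 * Real.pi)) {η : ℝ} (hη : 0 < η) :
    ∃ h₀ : ℝ, 0 < h₀ ∧ ∀ h : ℝ, 0 < h → h ≤ h₀ → ∃ (n k : ℕ) (p : ZMod n → ℤ × ℤ) (s : ℕ → ℝ),
      IsPolygon p ∧ 0 < k ∧ k < n ∧ Monotone s ∧ s 0 = 0 ∧ s k = Real.pi ∧
      s n = 2 * Real.pi ∧ ∀ i < n, ∀ t ∈ Icc (s i) (s (i + 1)),
        dist ((h : ℂ) * pt (p i)) (c t) < η := by
  have hpi := Real.pi_gt_three
  obtain ⟨τ₁, hτ₁, hu⟩ := hJ.uniform (show 0 < η / 4 by linarith)
  set τ := min (τ₁ / 3) (1 / 6) with hτdef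
  have hτ0 : 0 < τ := lt_min (by linarith) (by norm_num)
  have hτ6 : τ ≤ 1 / 6 := min_le_right _ _
  have hτ3 : 3 * τ ≤ τ₁ := by
    have := min_le_left (τ₁ / 3) (1 / 6)
    linarith
  obtain ⟨μ, hμ, hμ'⟩ := hJ.uniform_inj hτ0
  refine ⟨min (μ / 6) (η / 8), lt_min (by linarith) (by linarith), fun h hh hh₀ => ?_⟩
  have hh1 : 6 * h ≤ μ := by
    have := hh₀.trans (min_le_left _ _)
    linarith
  have hh2 : 8 * h ≤ η := by
    have := hh₀.trans (min_le_right _ _)
    linarith
  have hsep : ∀ x y, dist (c x) (c y) ≤ 5 * h → ∃ k : ℤ, |x - y - k * (2 * Real.pi)| < τ := by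
    intro x y hxy
    exact hμ' x y (by linarith)
  classical
  have hex := exists_ch hJ hh
  set n := Nat.find hex with hn
  obtain ⟨v, t, H⟩ := Nat.find_spec hex
  rw [← hn] at H
  have hmin : ∀ n' v' t', Ch c h n' v' t' → n ≤ n' := fun n' v' t' H' =>
    Nat.find_min' hex ⟨v', t', H'⟩
  have hτ2 : τ ≤ 1 / 2 := by linarith
  have hinj : ∀ a b, a < b → b < n → v a ≠ v b := fun a b hab hb =>
    H.inj hh hτ0 hτ2 hsep hmin hab hb
  -- the chain is long
  have hlen : ∀ m ≤ n, t m ≤ t 0 + m * τ := by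
    intro m
    induction m with
    | zero => intro _; simp
    | succ m ih =>
      intro hm
      have h1 := ih (by omega)
      have h2 := H.small hh hτ2 hsep (m := m) (by omega)
      push_cast
      linarith
  have hn18 : 3 < n := by
    by_contra hc
    push Not at hc
    have h1 := hlen n le_rfl
    have h2 := H.low
    have h3 : (n : ℝ) ≤ 3 := by exact_mod_cast hc
    nlinarith
  have hn0 : 0 < n := by omega
  have hadj : ∀ m < n, ∃ r, v (m + 1) = v m + dir r := by
    intro m hm
    rcases H.adj m hm with h1 | h1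
    · exfalso
      rcases Nat.lt_or_ge (m + 1) n with h2 | h2
      · exact hinj m (m + 1) (Nat.lt_succ_self m) h2 h1.symm
      · have h3 : m + 1 = n := by omega
        rw [h3, H.closed] at h1
        exact hinj 0 m (by omega) hm h1
    · exact h1
  -- the end of the chain
  have hend : |t n - t 0 - 2 * Real.pi| < τ := by
    rcases H.two hh hτ2 hsep (Nat.zero_le n) le_rfl H.closed.symm with h1 | h1
    · have := H.low
      linarith
    · exact h1
  rw [abs_lt] at hend
  -- the shift of the parameters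
  set j : ℤ := -⌈t 0 / (2 * Real.pi)⌉ with hj
  have hj1 : t 0 + j * (2 * Real.pi) ≤ 0 := by
    have h1 := Int.le_ceil (t 0 / (2 * Real.pi))
    rw [div_le_iff₀ (by positivity)] at h1
    rw [hj]
    push_cast
    linarith
  have hj2 : -(2 * Real.pi) < t 0 + j * (2 * Real.pi) := by
    have h1 := Int.ceil_lt_add_one (t 0 / (2 * Real.pi))
    rw [← sub_lt_iff_lt_add, lt_div_iff₀ (by positivity)] at h1
    rw [hj]
    push_cast
    linarith
  -- periodic extension
  set P : ℕ → ℤ × ℤ := fun m => v (m % n) with hP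
  set T₀ : ℕ → ℝ := fun m => min (t m) (t 0 + 2 * Real.pi) with hT₀
  set T : ℕ → ℝ := fun m => T₀ (m % n) + ((m / n : ℕ) + j) * (2 * Real.pi) with hT
  have hT₀0 : T₀ 0 = t 0 := by
    simp only [hT₀]
    exact min_eq_left (by linarith)
  have hT₀le : ∀ m, T₀ m ≤ t 0 + 2 * Real.pi := fun m => min_le_right _ _
  have hT₀near : ∀ m ≤ n, |T₀ m - t m| ≤ τ := by
    intro m hm
    have h1 := H.monot hm le_rfl
    simp only [hT₀]
    rw [abs_le]
    rcases min_cases (t m) (t 0 + 2 * Real.pi) with ⟨h2, h3⟩ | ⟨h2, h3⟩ <;> rw [h2] <;>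
      constructor <;> linarith [hend.1, hend.2]
  have hstep : ∀ m, T m ≤ T (m + 1) ∧ T (m + 1) ≤ T m + 2 * τ := by
    intro m
    simp only [hT]
    rcases mod_succ hn0 m with ⟨h1, h2, h3⟩ | ⟨h1, h2, h3⟩
    · rw [h2, h3]
      have h4 := H.mono (m % n) (by omega)
      have h5 := H.small hh hτ2 hsep (m := m % n) (by omega)
      have h6 : T₀ (m % n) ≤ T₀ (m % n + 1) := min_le_min h4 le_rfl
      have h7 : T₀ (m % n + 1) ≤ T₀ (m % n) + τ := by
        simp only [hT₀]
        rw [← min_add_add_right]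
        exact min_le_min (by linarith) (by linarith)
      constructor <;> linarith
    · rw [h2, h3, hT₀0]
      have h4 := hT₀le (m % n)
      have h5 := H.small hh hτ2 hsep (m := m % n) (by omega)
      rw [h1] at h5
      have h6 : t 0 + 2 * Real.pi ≤ T₀ (m % n) + 2 * τ := by
        simp only [hT₀]
        rw [← min_add_add_right]
        refine le_min ?_ (by linarith)
        linarith [hend.1]
      push_cast
      constructor <;> linarith
  have hmono : Monotone T := monotone_nat_of_le_succ fun m => (hstep m).1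
  have hTn : ∀ m, T (m + n) = T m + 2 * Real.pi := by
    intro m
    simp only [hT]
    rw [Nat.add_mod_right, Nat.add_div_right m hn0]
    push_cast
    ring
  have hPn : ∀ m, P (m + n) = P m := by
    intro m
    simp only [hP]
    rw [Nat.add_mod_right]
  have hPs : ∀ m, ∃ r, P (m + 1) = P m + dir r := by
    intro m
    simp only [hP]
    rcases mod_succ hn0 m with ⟨h1, h2, h3⟩ | ⟨h1, h2, h3⟩
    · rw [h2]
      exact hadj _ (by omega)
    · rw [h2, ← H.closed]
      have := hadj (m % n) (by omega)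
      rwa [h1] at this
  have hPi : ∀ a b, P a = P b → a % n = b % n := by
    intro a b hab
    have ha := Nat.mod_lt a hn0
    have hb := Nat.mod_lt b hn0
    rcases lt_trichotomy (a % n) (b % n) with h1 | h1 | h1
    · exact absurd hab (hinj _ _ h1 hb)
    · exact h1
    · exact absurd hab.symm (hinj _ _ h1 ha)
  have hnear : ∀ m, ∀ x ∈ Icc (T m) (T (m + 1)), dist ((h : ℂ) * pt (P m)) (c x) < 3 * η / 4 := by
    intro m x hx
    have hm := Nat.mod_lt m hn0
    have h1 := H.near (m % n) hm.le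
    have h2 := (hstep m).2
    have h3 := abs_le.1 (hT₀near (m % n) hm.le)
    have h4 : |x - ((m / n : ℕ) + j) * (2 * Real.pi) - t (m % n)| ≤ τ₁ := by
      have h5 : T m = T₀ (m % n) + ((m / n : ℕ) + j) * (2 * Real.pi) := rfl
      rw [abs_le]
      constructor <;> linarith [hx.1, hx.2]
    have h5 : c (x - ((m / n : ℕ) + j) * (2 * Real.pi)) = c x := by
      have h6 := per_int hJ.per (-(((m / n : ℕ) : ℤ) + j)) x
      rw [Int.cast_neg, Int.cast_add, Int.cast_natCast, neg_mul, ← sub_eq_add_neg] at h6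
      exact h6
    have h6 := hu _ _ h4
    rw [h5] at h6
    have h7 := dist_triangle ((h : ℂ) * pt (P m)) (c (t (m % n))) (c x)
    have h8 : dist ((h : ℂ) * pt (P m)) (c (t (m % n))) ≤ 2 * h := h1
    rw [dist_comm (c (t (m % n)))] at h7
    linarith
  have hT0 : T 0 ≤ 0 := by
    simp only [hT]
    rw [Nat.zero_mod, Nat.zero_div, hT₀0, Nat.cast_zero, zero_add]
    exact hj1
  have hTn0 : 0 < T n := by
    have h1 := hTn 0
    rw [zero_add] at h1
    rw [h1]
    simp only [hT]
    rw [Nat.zero_mod, Nat.zero_div, hT₀0, Nat.cast_zero, zero_add]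
    linarith
  obtain ⟨a, ha, ha1, ha2⟩ := exists_level hT0 hTn0
  have hsn : T (n + a) = T a + 2 * Real.pi := by rw [add_comm, hTn]
  have hTa := (hstep a).2
  obtain ⟨k, hk, hk1, hk2⟩ := exists_level (f := fun m => T (m + a)) (x := Real.pi) (n := n)
    (by
      show T (0 + a) ≤ _
      rw [zero_add]
      linarith)
    (by
      show _ < T (n + a)
      rw [hsn]
      linarith)
  have hk0 : 0 < k := by
    rcases Nat.eq_zero_or_pos k with h1 | h1
    · exfalso
      rw [h1] at hk2
      have h2 : Real.pi < T (0 + 1 + a) := hk2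
      rw [zero_add, add_comm] at h2
      linarith
    · exact h1
  have hTk := (hstep (k + a)).2
  obtain ⟨s, hs, hs0, hsk, hsn', hsx⟩ := exists_fix (c := c)
    (x := fun m => (h : ℂ) * pt (P (m + a))) (s := fun m => T (m + a)) (N := n) (k := k)
    (a0 := 0) (a1 := Real.pi) (a2 := 2 * Real.pi) (η := 2 * τ) (ε := 3 * η / 4) (ω := η / 4)
    (by linarith) (fun x y hxy => hmono (Nat.add_le_add_right hxy a)) hk0 hk (by linarith)
    (by linarith)
    (by
      show |T (0 + a) - 0| ≤ _
      rw [zero_add, sub_zero, abs_le]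
      constructor <;> linarith)
    (by
      show |T (k + a) - Real.pi| ≤ _
      have h1 : Real.pi < T (k + 1 + a) := hk2
      have h2 : T (k + a) ≤ Real.pi := hk1
      rw [show k + 1 + a = k + a + 1 by ring] at h1
      rw [abs_le]
      constructor <;> linarith)
    (by
      show |T (n + a) - 2 * Real.pi| ≤ _
      rw [hsn, abs_le]
      constructor <;> linarith)
    (fun i _ x hx => by
      refine hnear (i + a) x ?_
      have h1 : x ∈ Icc (T (i + a)) (T (i + 1 + a)) := hx
      rwa [show i + 1 + a = i + a + 1 by ring] at h1)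
    (fun x y hxy => hu x y (by linarith))
  have hne : NeZero n := ⟨by omega⟩
  have hpv : ∀ m : ℕ, P (((m : ℕ) : ZMod n).val + a) = P (m + a) := by
    intro m
    simp only [hP]
    rw [ZMod.val_natCast, Nat.mod_add_mod]
  refine ⟨n, k, fun i => P (i.val + a), s, ⟨by omega, ?_, ?_⟩, hk0, hk, hs, hs0, hsk, hsn',
    fun i hi x hx => ?_⟩
  · intro i j hij
    have h1 := hPi _ _ hij
    have h2 : i.val % n = j.val % n := Nat.ModEq.add_right_cancel' a h1
    rw [Nat.mod_eq_of_lt (ZMod.val_lt i), Nat.mod_eq_of_lt (ZMod.val_lt j)] at h2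
    exact ZMod.val_injective n h2
  · intro i
    obtain ⟨r, hr⟩ := hPs (i.val + a)
    refine ⟨r, ?_⟩
    have h1 : i + 1 = ((i.val + 1 : ℕ) : ZMod n) := by
      push_cast
      rw [ZMod.natCast_zmod_val]
    show P ((i + 1).val + a) = P (i.val + a) + dir r
    rw [h1, hpv, show i.val + 1 + a = i.val + a + 1 by ring]
    exact hr
  · show dist ((h : ℂ) * pt (P (((i : ℕ) : ZMod n).val + a))) (c x) < η
    rw [hpv]
    have := hsx i hi x hx
    have h2 : 3 * η / 4 + η / 4 = η := by ring
    rw [h2] at this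
    exact this

end Vale.Agent.P167.H634.Apx
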