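import Vale.Agent.P167.H634.Apx.Jor

/-!
# P167, general `q`: the Jordan theorem for polygons of the square lattice, part 2
-/

set_option autoImplicit false

namespace Vale.Agent.P167.H634.Apx

open Finset
open Vale.Agent.P167.E6 (IsPolygon Encloses dir face)
open Vale.Agent.P167.H174 (dir_injective)

variable {n : ℕ} [NeZero n] {p : ZMod n → ℤ × ℤ}

/-- The winding number of the faces on the left of the polygon. -/
theorem left_const (hp : IsPolygon p) :
    ∃ L : ℤ, ∀ i r, p (i + 1) = p i + dir r → W p (face (p i) r) = L := by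
  choose r hr using hp.2.2
  have hstep : ∀ i, W p (face (p (i + 1)) (r (i + 1))) = W p (face (p i) (r i)) := fun i =>
    left_step hp (hr i) (hr (i + 1))
  have hnat : ∀ m : ℕ, W p (face (p (m : ZMod n)) (r (m : ZMod n))) = W p (face (p 0) (r 0)) := by
    intro m
    induction m with
    | zero => rw [Nat.cast_zero]
    | succ m ih =>
      rw [Nat.cast_add, Nat.cast_one, hstep, ih]
  refine ⟨W p (face (p 0) (r 0)), fun i s hs => ?_⟩
  have h1 : s = r i := by
    apply dir_injective
    rw [hr i] at hs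
    exact (add_left_cancel hs).symm
  have h2 := hnat i.val
  rw [ZMod.natCast_zmod_val] at h2
  rw [h1, h2]

theorem exists_bound (p : ZMod n → ℤ × ℤ) : ∃ B : ℤ, ∀ i, -B < (p i).1 ∧ (p i).1 < B ∧
    -B < (p i).2 ∧ (p i).2 < B := by
  have h1 : ∃ B : ℤ, ∀ i ∈ (Finset.univ : Finset (ZMod n)), |(p i).1| + |(p i).2| ≤ B := by
    obtain ⟨i, -, hi⟩ := Finset.exists_max_image (Finset.univ : Finset (ZMod n))
      (fun i => |(p i).1| + |(p i).2|) ⟨0, Finset.mem_univ _⟩
    exact ⟨_, hi⟩
  obtain ⟨B, hB⟩ := h1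
  refine ⟨B + 1, fun i => ?_⟩
  have h2 := hB i (Finset.mem_univ _)
  have h3 := abs_le.1 (show |(p i).1| ≤ B by linarith [abs_nonneg (p i).2])
  have h4 := abs_le.1 (show |(p i).2| ≤ B by linarith [abs_nonneg (p i).1])
  exact ⟨by linarith [h3.1], by linarith [h3.2], by linarith [h4.1], by linarith [h4.2]⟩

theorem W_box (hp : IsPolygon p) {B : ℤ} (hB : ∀ i, -B < (p i).1 ∧ (p i).1 < B ∧
    -B < (p i).2 ∧ (p i).2 < B) {F : ℤ × ℤ} (h : W p F ≠ 0) :
    -B ≤ F.1 ∧ F.1 ≤ B ∧ -B ≤ F.2 ∧ F.2 ≤ B := by
  by_contra hcon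
  apply h
  by_cases h1 : -B ≤ F.1
  · refine W_zero fun i => ?_
    have h2 := hB i
    have h3 := hB (i + 1)
    omega
  · refine W_left hp fun i => ?_
    have h2 := hB i
    omega

/-- The values of the winding number. -/
theorem W_vals (hp : IsPolygon p) {L : ℤ}
    (hL : ∀ i r, p (i + 1) = p i + dir r → W p (face (p i) r) = L) (F : ℤ × ℤ) :
    W p F = 0 ∨ W p F = L ∨ W p F = L - 1 := by
  obtain ⟨B, hB⟩ := exists_bound p
  have key : ∀ (d : ℕ) (x y : ℤ), B ≤ x + d → W p (x, y) = 0 ∨ W p (x, y) = L ∨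
      W p (x, y) = L - 1 := by
    intro d
    induction d with
    | zero =>
      intro x y hx
      left
      refine W_zero fun i => ?_
      have := hB i
      left
      show (p i).1 ≤ x
      push_cast at hx
      omega
    | succ d ih =>
      intro x y hx
      have h1 := W_right hp x y
      by_cases h2 : ∃ i, p i = (x + 1, y) ∧ p (i + 1) = (x + 1, y + 1)
      · right; left
        obtain ⟨i, h3, h4⟩ := h2
        have h5 := hL i 1 (by rw [h3, h4, dir1])
        have h6 : face (p i) 1 = (x, y) := by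
          rw [h3]
          ext <;> simp [face]
        rwa [h6] at h5
      · by_cases h3 : ∃ i, p i = (x + 1, y + 1) ∧ p (i + 1) = (x + 1, y)
        · right; right
          have h7 := M_neg hp h3
          obtain ⟨i, h4, h5⟩ := h3
          have h6 := hL i 3 (by rw [h4, h5, dir3]; simp)
          have h8 : face (p i) 3 = (x + 1, y) := by
            rw [h4]
            ext <;> simp [face]
          rw [h8] at h6
          linarith
        · rw [M_zero h2 h3] at h1
          have h4 := ih (x + 1) y (by push_cast at hx; omega)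
          have h5 : W p (x, y) = W p (x + 1, y) := by linarith
          rw [h5]
          exact h4
  exact key (B - F.1).toNat F.1 F.2 (by omega)

theorem two_ne (hp : IsPolygon p) (i : ZMod n) : i + 1 + 1 ≠ i := by
  intro h
  have h5 : ((2 : ℕ) : ZMod n) = 0 := by
    have : i + 1 + 1 - i = 0 := by rw [h]; ring
    push_cast
    linear_combination this
  rw [ZMod.natCast_eq_zero_iff] at h5
  have := Nat.le_of_dvd (by norm_num) h5
  have := hp.1
  omega

/-- A highest horizontal step. -/
theorem exists_top (hp : IsPolygon p) : ∃ j, (∀ i, (p i).2 ≤ (p j).2) ∧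
    (p (j + 1) = p j + dir 0 ∨ p (j + 1) = p j + dir 2) := by
  obtain ⟨i, -, hi⟩ := Finset.exists_max_image (Finset.univ : Finset (ZMod n))
    (fun i => (p i).2) ⟨0, Finset.mem_univ _⟩
  have hi' : ∀ j, (p j).2 ≤ (p i).2 := fun j => hi j (Finset.mem_univ _)
  obtain ⟨r, hr⟩ := hp.2.2 i
  rcases fin4 r with rfl | rfl | rfl | rfl
  · exact ⟨i, hi', Or.inl hr⟩
  · exfalso
    have h1 := hi' (i + 1)
    rw [hr, dir1] at h1
    simp only at h1
    omega
  · exact ⟨i, hi', Or.inr hr⟩
  · obtain ⟨s, hs⟩ := hp.2.2 (i - 1)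
    rw [sub_add_cancel] at hs
    rcases fin4 s with rfl | rfl | rfl | rfl
    · have h1 : (p i).2 = (p (i - 1)).2 := by rw [hs, dir0]
      exact ⟨i - 1, fun j => by rw [← h1]; exact hi' j, Or.inl (by rw [sub_add_cancel]; exact hs)⟩
    · exfalso
      have h1 : p (i - 1) = p (i + 1) := by
        rw [hr, hs, add_assoc, show dir 1 + dir 3 = 0 from H174.dir_add_two 1, add_zero]
      have h2 := hp.2.1 h1
      have h3 := two_ne hp (i - 1)
      rw [sub_add_cancel] at h3
      exact h3 h2.symm
    · have h1 : (p i).2 = (p (i - 1)).2 := by rw [hs, dir2]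
      exact ⟨i - 1, fun j => by rw [← h1]; exact hi' j, Or.inr (by rw [sub_add_cancel]; exact hs)⟩
    · exfalso
      have h1 := hi' (i - 1)
      rw [hs, dir3] at h1
      simp only at h1
      omega

theorem L_vals (hp : IsPolygon p) {L : ℤ}
    (hL : ∀ i r, p (i + 1) = p i + dir r → W p (face (p i) r) = L) : L = 0 ∨ L = 1 := by
  obtain ⟨j, hj, h | h⟩ := exists_top hp
  · left
    rw [← hL j 0 h]
    refine W_zero fun i => ?_
    right; left
    have h1 : face (p j) 0 = p j := by ext <;> simp [face]
    rw [h1]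
    exact ⟨hj i, hj (i + 1)⟩
  · right
    have h1 := jump hp (p j) 2
    rw [hL j 2 h, ← h, M_one hp ⟨j, rfl, rfl⟩] at h1
    have h2 : W p (face (p j) (2 - 1)) = 0 := by
      refine W_zero fun i => ?_
      right; left
      have h3 : (face (p j) (2 - 1)).2 = (p j).2 := by
        show (face (p j) 1).2 = (p j).2
        simp [face]
      rw [h3]
      exact ⟨hj i, hj (i + 1)⟩
    rw [h2] at h1
    linarith

/-- **Jordan theorem for polygons of the square lattice**: one of the two orientations of the
polygon encloses a finite set of faces. -/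
theorem exists_encloses (hp : IsPolygon p) :
    ∃ S : Finset (ℤ × ℤ), Encloses p S ∨ Encloses (fun i => p (-i)) S := by
  obtain ⟨L, hL⟩ := left_const hp
  obtain ⟨B, hB⟩ := exists_bound p
  have hmem : ∀ c : ℤ, c ≠ 0 → ∀ F : ℤ × ℤ,
      F ∈ ((Finset.Icc (-B) B) ×ˢ (Finset.Icc (-B) B)).filter (fun F => W p F = c) ↔
        W p F = c := by
    intro c hc F
    rw [Finset.mem_filter, Finset.mem_product, Finset.mem_Icc, Finset.mem_Icc]
    constructor
    · exact fun h => h.2
    · intro h
      have h1 := W_box hp hB (F := F) (by rw [h]; exact hc)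
      exact ⟨⟨⟨h1.1, h1.2.1⟩, h1.2.2.1, h1.2.2.2⟩, h⟩
  have hMv : ∀ v w, M p v w = 1 → ∃ i, p i = v ∧ p (i + 1) = w := by
    intro v w h
    by_contra h1
    by_cases h2 : ∃ i, p i = w ∧ p (i + 1) = v
    · rw [M_neg hp h2] at h
      norm_num at h
    · rw [M_zero h1 h2] at h
      norm_num at h
  rcases L_vals hp hL with rfl | rfl
  · refine ⟨((Finset.Icc (-B) B) ×ˢ (Finset.Icc (-B) B)).filter (fun F => W p F = -1),
      Or.inr fun v r => ?_⟩
    rw [hmem (-1) (by norm_num), hmem (-1) (by norm_num)]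
    have h1 := jump hp v r
    have h2 : (∃ i, p (-i) = v ∧ p (-(i + 1)) = v + dir r) ↔
        ∃ i, p i = v + dir r ∧ p (i + 1) = v := by
      constructor
      · rintro ⟨i, h2, h3⟩
        refine ⟨-(i + 1), h3, ?_⟩
        have : -(i + 1) + 1 = -i := by ring
        rw [this]
        exact h2
      · rintro ⟨i, h2, h3⟩
        refine ⟨-(i + 1), ?_, ?_⟩
        · rw [neg_neg]
          exact h3
        · have : -(-(i + 1) + 1) = i := by ring
          rw [this]
          exact h2
    show (∃ i, p (-i) = v ∧ p (-(i + 1)) = v + dir r) ↔ _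
    rw [h2]
    constructor
    · intro h
      have h3 := M_neg hp h
      rw [h3] at h1
      rcases W_vals hp hL (face v r) with h4 | h4 | h4 <;>
      rcases W_vals hp hL (face v (r - 1)) with h5 | h5 | h5 <;>
      exact ⟨by omega, by omega⟩
    · rintro ⟨h3, h4⟩
      have h5 := W_vals hp hL (face v (r - 1))
      have h6 : M p v (v + dir r) = -1 := by omega
      rw [M_symm] at h6
      exact hMv _ _ (by omega)
  · refine ⟨((Finset.Icc (-B) B) ×ˢ (Finset.Icc (-B) B)).filter (fun F => W p F = 1),
      Or.inl fun v r => ?_⟩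
    rw [hmem 1 (by norm_num), hmem 1 (by norm_num)]
    have h1 := jump hp v r
    constructor
    · intro h
      have h3 := M_one hp h
      rw [h3] at h1
      rcases W_vals hp hL (face v r) with h4 | h4 | h4 <;>
      rcases W_vals hp hL (face v (r - 1)) with h5 | h5 | h5 <;>
      exact ⟨by omega, by omega⟩
    · rintro ⟨h3, h4⟩
      have h5 := W_vals hp hL (face v (r - 1))
      have h6 : M p v (v + dir r) = 1 := by omega
      exact hMv _ _ h6

end Vale.Agent.P167.H634.Apx
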