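import Vale.Agent.P167.H634.Apx.Poly

/-!
# P167, general `q`, route (C): [POLY] from the realization of polygons
-/

set_option autoImplicit false

namespace Vale.Agent.P167.H634.Apx

open Set Metric Topology Filter
open Vale.Agent.P167.E6 (IsPolygon Encloses Approx dir face pt region PF6)
open Vale.Agent.P153.R2.Final (circ toC dom)
open Vale.Agent.P167.H199.C (HasApx S_poly)

/-- The statement of `approx_stair`. -/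
def ApxStair : Prop := ∀ {m : ℕ} {q : ZMod m → ℤ × ℤ} {S₀ : Finset (ℤ × ℤ)}, IsPolygon q →
  Encloses q S₀ → ∀ {σ : ℝ → ℝ}, Continuous σ → StrictMono σ →
  (∀ t, σ (t + 2 * Real.pi) = σ t + m) → 0 ≤ σ 0 → ∀ {j : ℕ}, (j : ℝ) < σ Real.pi →
  σ Real.pi < j + 1 → ∀ {r : Fin 4}, q ((j : ZMod m) + 1) = q j + dir r →
  ∀ {lam : ℝ}, 0 < lam → ∀ {Φ : (ℝ × ℝ) ≃ₜ (ℝ × ℝ)},
  (∀ t, toC (Φ (circ t)) = (lam : ℂ) * ((1 - Complex.I) / 2) * PF6 q 1 (σ t)) →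
  ∀ {δ : ℕ → ℝ}, (∀ n, 0 < δ n) → Tendsto δ atTop (𝓝 0) →
    ∃ (N k : ℕ → ℕ) (p : ∀ n, ZMod (N n) → ℤ × ℤ) (S : ℕ → Finset (ℤ × ℤ)),
      Approx Φ δ N k p S ∧ QE.Stair (r + 3) Φ δ N k p S

theorem s_poly_of (H : ApxStair) : S_poly QT.StairU := by
  intro Φ hΦ ε hε
  obtain ⟨n, q, S, lam, σ, j, r, Φ', hq, hS, hlam, h1, h2, h3, h4, h5, h6, hr, e1, h7⟩ :=
    exists_model (hasApx_iff.1 hΦ) hε
  refine ⟨Φ', h7, fun δ hδ hδ0 => ?_⟩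
  obtain ⟨N, k, p, T, h8, h9⟩ := H hq hS h1 h2 h3 h4 h5 h6 hr hlam e1 hδ hδ0
  exact ⟨N, k, p, T, h8, r + 3, h9⟩

end Vale.Agent.P167.H634.Apx
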