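import Vale.Agent.P167.H634.Apx.Pos
import Vale.Agent.P167.H199.C.CDefs

/-!
# P167, general `q`, route (C): existence of approximations and shifts

* `hasApx_iff`: a marked domain has an approximation iff its boundary curve is positive;
* `s_sha`: shifts preserve the orientation;
* `exap_all`: for every marked domain there is one with the same domain and the same marks which has
  approximations for all sequences of meshes.
-/

set_option autoImplicit false

namespace Vale.Agent.P167.H634.Apx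

open Set Metric Topology Filter
open Vale.Agent.P167.E6 (IsPolygon Encloses Approx dir face pt region)
open Vale.Agent.P153.R2.Final (circ toC dom)
open Vale.Agent.P167.H199.C (HasApx shift S_sha)

variable {Φ : (ℝ × ℝ) ≃ₜ (ℝ × ℝ)}

theorem hasApx_of_pos (h : Pos Φ) : HasApx Φ := by
  obtain ⟨N, k, p, S, H⟩ := approx_of_pos h (δ := fun n : ℕ => 1 / ((n : ℝ) + 1))
    (fun n => by positivity) tendsto_one_div_add_atTop_nhds_zero_nat
  exact ⟨_, N, k, p, S, H⟩

theorem hasApx_iff : HasApx Φ ↔ Pos Φ :=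
  ⟨fun ⟨_, _, _, _, _, H⟩ => pos_of_approx H, hasApx_of_pos⟩

/-- **[SHA]** -/
theorem s_sha : S_sha := fun _ h r _ => hasApx_iff.2 (pos_shift (hasApx_iff.1 h) r)

theorem shift_apx (h : HasApx Φ) (r : ℝ) : HasApx (shift Φ r) :=
  hasApx_iff.2 (pos_shift (hasApx_iff.1 h) r)

/-- If there is one approximation then there are approximations for all sequences of meshes. -/
theorem approx_all (h : HasApx Φ) {δ : ℕ → ℝ} (hδ : ∀ n, 0 < δ n)
    (hδ0 : Tendsto δ atTop (𝓝 0)) :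
    ∃ (N k : ℕ → ℕ) (p : ∀ n, ZMod (N n) → ℤ × ℤ) (S : ℕ → Finset (ℤ × ℤ)),
      Approx Φ δ N k p S :=
  approx_of_pos (hasApx_iff.1 h) hδ hδ0

/-- **[EXAP-ALL]** -/
theorem exap_all (Φ : (ℝ × ℝ) ≃ₜ (ℝ × ℝ)) : ∃ Φ' : (ℝ × ℝ) ≃ₜ (ℝ × ℝ), (Φ' = Φ ∨ Φ' = cj.trans Φ) ∧
    dom Φ' = dom Φ ∧
    Φ' (circ 0) = Φ (circ 0) ∧ Φ' (circ Real.pi) = Φ (circ Real.pi) ∧ HasApx Φ' ∧
    ∀ δ : ℕ → ℝ, (∀ n, 0 < δ n) → Tendsto δ atTop (𝓝 0) →
    ∃ (N k : ℕ → ℕ) (p : ∀ n, ZMod (N n) → ℤ × ℤ) (S : ℕ → Finset (ℤ × ℤ)),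
      Approx Φ' δ N k p S := by
  rcases pos_or Φ with h | h
  · exact ⟨Φ, Or.inl rfl, rfl, rfl, rfl, hasApx_of_pos h, fun δ h1 h2 => approx_of_pos h h1 h2⟩
  · refine ⟨cj.trans Φ, Or.inr rfl, dom_cj, ?_, ?_, hasApx_of_pos h,
      fun δ h1 h2 => approx_of_pos h h1 h2⟩
    · show Φ (cj (circ 0)) = _
      rw [cj_circ, neg_zero]
    · show Φ (cj (circ Real.pi)) = _
      rw [cj_circ]
      congr 1
      show (Real.cos (-Real.pi), Real.sin (-Real.pi)) = (Real.cos Real.pi, Real.sin Real.pi)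
      rw [Real.cos_neg, Real.sin_neg, Real.sin_pi, neg_zero]

end Vale.Agent.P167.H634.Apx
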