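import Vale.Agent.P167.E6.Defs
import Vale.Agent.P153.R2.R1.Curve
import Vale.Agent.P167.H634.Sch.Par

/-!
# P167, general `q`: polygons of the square lattice close to a Jordan curve

`exists_polygon`: for every Jordan curve `c` and `η > 0`, for all small meshes there is a simple
closed polygon of the square lattice which is uniformly `η`-close to `c`, with marks. (A shortest
closed chain of lattice points which follows the curve once is simple.)
-/

set_option autoImplicit false

namespace Vale.Agent.P167.H634.Apx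

open Set Metric
open Vale.Agent.P167.E6 (IsPolygon dir pt)
open Vale.Agent.P153.R2.R1 (JCurve per_int)
open Vale.Agent.P167.H634.Sch (exists_fix)

/-- A closed chain of lattice points which follows the curve `c` once. -/
structure Ch (c : ℝ → ℂ) (h : ℝ) (n : ℕ) (v : ℕ → ℤ × ℤ) (t : ℕ → ℝ) : Prop where
  near : ∀ m ≤ n, dist ((h : ℂ) * pt (v m)) (c (t m)) ≤ 2 * h
  mono : ∀ m < n, t m ≤ t (m + 1)
  step : ∀ m < n, t (m + 1) < t m + Real.pi
  adj : ∀ m < n, v (m + 1) = v m ∨ ∃ r, v (m + 1) = v m + dir r
  closed : v n = v 0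
  low : t 0 + Real.pi < t n
  high : t n < t 0 + 3 * Real.pi

variable {c : ℝ → ℂ} {h : ℝ} {n : ℕ} {v : ℕ → ℤ × ℤ} {t : ℕ → ℝ}

theorem dist_le_coord {z w : ℂ} {a b : ℝ} (h1 : |z.re - w.re| ≤ a) (h2 : |z.im - w.im| ≤ b) :
    dist z w ≤ a + b := by
  rw [dist_eq_norm]
  have h3 := Complex.norm_le_abs_re_add_abs_im (z - w)
  rw [Complex.sub_re, Complex.sub_im] at h3
  linarith

theorem round_near (hh : 0 < h) (x : ℝ) : |h * (round (x / h) : ℤ) - x| ≤ h / 2 := by
  have h1 := abs_sub_round (x / h)
  have h2 : h * (round (x / h) : ℤ) - x = - (h * (x / h - round (x / h))) := by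
    field_simp
    ring
  rw [h2, abs_neg, abs_mul, abs_of_pos hh]
  calc h * |x / h - round (x / h)| ≤ h * (1 / 2) := mul_le_mul_of_nonneg_left h1 hh.le
    _ = h / 2 := by ring

theorem round_step (hh : 0 < h) {x y : ℝ} (hxy : |x - y| ≤ h / 2) :
    round (x / h) = round (y / h) ∨ round (x / h) = round (y / h) + 1 ∨
      round (x / h) = round (y / h) - 1 := by
  have h1 := round_near hh x
  have h2 := round_near hh y
  have h3 : |h * ((round (x / h) : ℤ) - (round (y / h) : ℤ))| ≤ h * (3 / 2) := by
    rw [abs_le] at h1 h2 hxy ⊢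
    constructor <;> nlinarith [h1.1, h1.2, h2.1, h2.2, hxy.1, hxy.2]
  rw [abs_mul, abs_of_pos hh] at h3
  have h4 := abs_le.1 (le_of_mul_le_mul_left h3 hh)
  have h5 : ((round (x / h) - round (y / h) : ℤ) : ℝ) < 2 := by push_cast; linarith [h4.2]
  have h6 : (-2 : ℝ) < ((round (x / h) - round (y / h) : ℤ) : ℝ) := by push_cast; linarith [h4.1]
  have h7 : round (x / h) - round (y / h) < 2 := by exact_mod_cast h5
  have h8 : -2 < round (x / h) - round (y / h) := by exact_mod_cast h6
  omega

theorem exists_ch (hJ : JCurve c (2 * Real.pi)) (hh : 0 < h) :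
    ∃ (n : ℕ) (v : ℕ → ℤ × ℤ) (t : ℕ → ℝ), Ch c h n v t := by
  have hpi := Real.pi_pos
  obtain ⟨τ, hτ, hu⟩ := hJ.uniform (show 0 < h / 2 by linarith)
  obtain ⟨M, hM⟩ := exists_nat_gt (2 * Real.pi / min τ 1)
  have hm0 : 0 < min τ 1 := lt_min hτ one_pos
  have hM0 : (0 : ℝ) < M := lt_trans (by positivity) hM
  have hMstep : 2 * Real.pi / M ≤ min τ 1 := by
    rw [div_lt_iff₀ hm0] at hM
    rw [div_le_iff₀ hM0]
    linarith
  set x : ℕ → ℝ := fun i => i * (2 * Real.pi / M) with hx
  have hxs : ∀ i, x (i + 1) = x i + 2 * Real.pi / M := by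
    intro i
    simp only [hx]
    push_cast
    ring
  have hx0 : x 0 = 0 := by simp [hx]
  have hxM : x M = 2 * Real.pi := by
    simp only [hx]
    field_simp
  have hst0 : 0 < 2 * Real.pi / M := by positivity
  have hcl : ∀ i, dist (c (x (i + 1))) (c (x i)) ≤ h / 2 := by
    intro i
    refine hu _ _ ?_
    rw [hxs, add_sub_cancel_left, abs_of_pos hst0]
    exact hMstep.trans (min_le_left _ _)
  have hcl1 : ∀ i, |(c (x (i + 1))).re - (c (x i)).re| ≤ h / 2 := by
    intro i
    have h1 := Complex.abs_re_le_norm (c (x (i + 1)) - c (x i))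
    rw [← dist_eq_norm, Complex.sub_re] at h1
    exact h1.trans (hcl i)
  have hcl2 : ∀ i, |(c (x (i + 1))).im - (c (x i)).im| ≤ h / 2 := by
    intro i
    have h1 := Complex.abs_im_le_norm (c (x (i + 1)) - c (x i))
    rw [← dist_eq_norm, Complex.sub_im] at h1
    exact h1.trans (hcl i)
  set V : ℕ → ℤ × ℤ := fun i => (round ((c (x i)).re / h), round ((c (x i)).im / h)) with hV
  have hre : ∀ w : ℤ × ℤ, ((h : ℂ) * pt w).re = h * w.1 := by
    intro w
    rw [Complex.re_ofReal_mul]
    rfl
  have him : ∀ w : ℤ × ℤ, ((h : ℂ) * pt w).im = h * w.2 := by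
    intro w
    rw [Complex.im_ofReal_mul]
    rfl
  set w : ℕ → ℤ × ℤ := fun m => if Even m then V (m / 2) else ((V (m / 2 + 1)).1, (V (m / 2)).2)
    with hw
  have w0 : ∀ i, w (2 * i) = V i := by
    intro i
    simp only [hw]
    rw [if_pos (even_two_mul i), Nat.mul_div_cancel_left i two_pos]
  have w1 : ∀ i, w (2 * i + 1) = ((V (i + 1)).1, (V i).2) := by
    intro i
    have h2 : (2 * i + 1) / 2 = i := by omega
    simp only [hw]
    rw [if_neg (by rw [Nat.not_even_iff_odd]; exact ⟨i, rfl⟩), h2]
  have t0 : ∀ i, x ((2 * i) / 2) = x i := fun i => by rw [Nat.mul_div_cancel_left i two_pos]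
  have t1 : ∀ i, x ((2 * i + 1) / 2) = x i := fun i => by rw [show (2 * i + 1) / 2 = i by omega]
  refine ⟨2 * M, w, fun m => x (m / 2), ?_, ?_, ?_, ?_, ?_, ?_, ?_⟩
  · intro m _
    obtain ⟨i, rfl | rfl⟩ : ∃ i, m = 2 * i ∨ m = 2 * i + 1 := ⟨m / 2, by omega⟩
    · rw [w0, t0]
      refine (dist_le_coord (a := h / 2) (b := h / 2) ?_ ?_).trans (by linarith)
      · rw [hre]
        exact round_near hh _
      · rw [him]
        exact round_near hh _
    · rw [w1, t1]
      refine (dist_le_coord (a := h) (b := h / 2) ?_ ?_).trans (by linarith)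
      · rw [hre]
        have h1 := round_near hh (c (x (i + 1))).re
        have h2 := hcl1 i
        have h3 : h * ((((V (i + 1)).1, (V i).2) : ℤ × ℤ).1 : ℝ) - (c (x i)).re =
            (h * (round ((c (x (i + 1))).re / h) : ℤ) - (c (x (i + 1))).re) +
              ((c (x (i + 1))).re - (c (x i)).re) := by
          simp only [hV]
          ring
        rw [h3]
        exact (abs_add_le _ _).trans (by linarith)
      · rw [him]
        exact round_near hh _
  · intro m _
    obtain ⟨i, rfl | rfl⟩ : ∃ i, m = 2 * i ∨ m = 2 * i + 1 := ⟨m / 2, by omega⟩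
    · rw [t0, t1]
    · rw [t1, show (2 * i + 1 + 1) / 2 = i + 1 by omega, hxs]
      linarith
  · intro m _
    have h3 : 2 * Real.pi / M ≤ 1 := hMstep.trans (min_le_right _ _)
    have h4 := Real.pi_gt_three
    obtain ⟨i, rfl | rfl⟩ : ∃ i, m = 2 * i ∨ m = 2 * i + 1 := ⟨m / 2, by omega⟩
    · rw [t0, t1]
      linarith
    · rw [t1, show (2 * i + 1 + 1) / 2 = i + 1 by omega, hxs]
      linarith
  · intro m _
    obtain ⟨i, rfl | rfl⟩ : ∃ i, m = 2 * i ∨ m = 2 * i + 1 := ⟨m / 2, by omega⟩
    · rw [w0, w1]
      rcases round_step hh (hcl1 i) with h1 | h1 | h1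
      · left
        simp only [hV]
        rw [h1]
      · right
        refine ⟨0, ?_⟩
        simp only [hV]
        rw [h1]
        ext <;> simp [dir]
      · right
        refine ⟨2, ?_⟩
        simp only [hV]
        rw [h1]
        ext <;> simp [dir, sub_eq_add_neg]
    · rw [w1, show 2 * i + 1 + 1 = 2 * (i + 1) by ring, w0]
      rcases round_step hh (hcl2 i) with h1 | h1 | h1
      · left
        simp only [hV]
        rw [h1]
      · right
        refine ⟨1, ?_⟩
        simp only [hV]
        rw [h1]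
        ext <;> simp [dir]
      · right
        refine ⟨3, ?_⟩
        simp only [hV]
        rw [h1]
        ext <;> simp [dir, sub_eq_add_neg]
  · have h1 : c (x M) = c (x 0) := by
      rw [hxM, hx0, ← hJ.per 0, zero_add]
    have h2 := w0 0
    rw [mul_zero] at h2
    rw [w0, h2]
    simp only [hV]
    rw [h1]
  · rw [Nat.mul_div_cancel_left M two_pos, Nat.zero_div, hxM, hx0]
    linarith
  · rw [Nat.mul_div_cancel_left M two_pos, Nat.zero_div, hxM, hx0]
    linarith

theorem Ch.monot (H : Ch c h n v t) {a b : ℕ} (hab : a ≤ b) (hb : b ≤ n) : t a ≤ t b := by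
  induction b, hab using Nat.le_induction with
  | base => exact le_rfl
  | succ b hab ih => exact (ih (by omega)).trans (H.mono b (by omega))

theorem dist_adj (hh : 0 < h) {u w : ℤ × ℤ} (hw : w = u ∨ ∃ r, w = u + dir r) :
    dist ((h : ℂ) * pt w) ((h : ℂ) * pt u) ≤ h := by
  rcases hw with rfl | ⟨r, rfl⟩
  · rw [dist_self]
    exact hh.le
  · rw [dist_eq_norm, ← mul_sub, norm_mul, Complex.norm_real, Real.norm_of_nonneg hh.le]
    have h1 : ‖pt (u + dir r) - pt u‖ = 1 := by
      have h2 : pt (u + dir r) - pt u = pt (dir r) := by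
        apply Complex.ext
        · simp [pt]
        · simp [pt]
      rw [h2]
      fin_cases r
      · have : pt (dir 0) = 1 := by apply Complex.ext <;> simp [pt, dir]
        simpa using congrArg norm this
      · have : pt (dir 1) = Complex.I := by apply Complex.ext <;> simp [pt, dir]
        simpa using congrArg norm this
      · have : pt (dir 2) = -1 := by apply Complex.ext <;> simp [pt, dir]
        simpa using congrArg norm this
      · have : pt (dir 3) = -Complex.I := by apply Complex.ext <;> simp [pt, dir]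
        simpa using congrArg norm this
    rw [h1, mul_one]

/-- An integer determined by a small interval. -/
theorem int_zero {k : ℤ} {d τ : ℝ} (hτ : τ ≤ 1 / 2) (h : |d - k * (2 * Real.pi)| < τ)
    (h1 : -(1 : ℝ) < d) (h2 : d < Real.pi + 1) : k = 0 := by
  have hpi := Real.pi_gt_three
  rw [abs_lt] at h
  have h3 : (k : ℝ) < 1 := by
    by_contra hc
    push Not at hc
    nlinarith [h.1, h.2]
  have h4 : (-1 : ℝ) < k := by
    by_contra hc
    push Not at hc
    nlinarith [h.1, h.2]
  have h5 : k < 1 := by exact_mod_cast h3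
  have h6 : -1 < k := by exact_mod_cast h4
  omega

section Min

variable {τ : ℝ}

theorem Ch.small (H : Ch c h n v t) (hh : 0 < h) (hτ : τ ≤ 1 / 2)
    (hsep : ∀ x y, dist (c x) (c y) ≤ 5 * h → ∃ k : ℤ, |x - y - k * (2 * Real.pi)| < τ)
    {m : ℕ} (hm : m < n) : t (m + 1) - t m < τ := by
  have h1 := H.near m hm.le
  have h2 := H.near (m + 1) hm
  have h3 := dist_adj hh (H.adj m hm)
  have h4 : dist (c (t (m + 1))) (c (t m)) ≤ 5 * h := by
    have h5 := dist_triangle4 (c (t (m + 1))) ((h : ℂ) * pt (v (m + 1))) ((h : ℂ) * pt (v m))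
      (c (t m))
    have h6 := dist_comm (c (t (m + 1))) ((h : ℂ) * pt (v (m + 1)))
    linarith
  obtain ⟨k, hk⟩ := hsep _ _ h4
  have h5 := int_zero hτ hk (by linarith [H.mono m hm]) (by linarith [H.step m hm])
  rw [h5, Int.cast_zero, zero_mul, sub_zero] at hk
  exact (abs_lt.1 hk).2

/-- Equal vertices of a chain have close parameters, or the parameters differ by about `2 π`. -/
theorem Ch.two (H : Ch c h n v t) (hh : 0 < h) (hτ : τ ≤ 1 / 2)
    (hsep : ∀ x y, dist (c x) (c y) ≤ 5 * h → ∃ k : ℤ, |x - y - k * (2 * Real.pi)| < τ)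
    {a b : ℕ} (hab : a ≤ b) (hb : b ≤ n) (he : v a = v b) :
    t b - t a < τ ∨ |t b - t a - 2 * Real.pi| < τ := by
  have hpi := Real.pi_gt_three
  have h1 := H.near a (hab.trans hb)
  have h2 := H.near b hb
  have h4 : dist (c (t b)) (c (t a)) ≤ 5 * h := by
    have h5 := dist_triangle (c (t b)) ((h : ℂ) * pt (v b)) (c (t a))
    have h6 := dist_comm (c (t b)) ((h : ℂ) * pt (v b))
    rw [he] at h1
    linarith
  obtain ⟨k, hk⟩ := hsep _ _ h4
  have h5 := H.monot hab hb
  have h6 := H.monot hb le_rfl
  have h7 := H.monot (Nat.zero_le a) (hab.trans hb)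
  have h8 := H.high
  rw [abs_lt] at hk
  have h9 : (k : ℝ) < 2 := by
    by_contra hc
    push Not at hc
    nlinarith [hk.1, hk.2]
  have h10 : (-1 : ℝ) < k := by
    by_contra hc
    push Not at hc
    nlinarith [hk.1, hk.2]
  have h11 : k < 2 := by exact_mod_cast h9
  have h12 : -1 < k := by exact_mod_cast h10
  have h13 : k = 0 ∨ k = 1 := by omega
  rcases h13 with rfl | rfl
  · left
    rw [Int.cast_zero, zero_mul, sub_zero] at hk
    exact hk.2
  · right
    rw [Int.cast_one, one_mul] at hk
    exact abs_lt.2 hk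

/-- **A shortest chain is simple.** -/
theorem Ch.inj (H : Ch c h n v t) (hh : 0 < h) (hτ0 : 0 < τ) (hτ : τ ≤ 1 / 2)
    (hsep : ∀ x y, dist (c x) (c y) ≤ 5 * h → ∃ k : ℤ, |x - y - k * (2 * Real.pi)| < τ)
    (hmin : ∀ n' v' t', Ch c h n' v' t' → n ≤ n') {a b : ℕ} (hab : a < b) (hb : b < n) :
    v a ≠ v b := by
  intro he
  have hpi := Real.pi_gt_three
  rcases H.two hh hτ hsep hab.le hb.le he with h1 | h1
  · -- remove the short loop
    set v' : ℕ → ℤ × ℤ := fun m => if m ≤ a then v m else v (m + (b - a)) with hv'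
    set t' : ℕ → ℝ := fun m => if m ≤ a then t m else t (m + (b - a)) with ht'
    have hv1 : ∀ m, m ≤ a → v' m = v m := fun m hm => by simp only [hv']; rw [if_pos hm]
    have hv2 : ∀ m, a < m → v' m = v (m + (b - a)) := fun m hm => by
      simp only [hv']; rw [if_neg (by omega)]
    have ht1 : ∀ m, m ≤ a → t' m = t m := fun m hm => by simp only [ht']; rw [if_pos hm]
    have ht2 : ∀ m, a < m → t' m = t (m + (b - a)) := fun m hm => by
      simp only [ht']; rw [if_neg (by omega)]
    have hC : Ch c h (n - (b - a)) v' t' := by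
      have hea : a + 1 + (b - a) = b + 1 := by omega
      have hend : n - (b - a) + (b - a) = n := by omega
      refine ⟨fun m hm => ?_, fun m hm => ?_, fun m hm => ?_, fun m hm => ?_, ?_, ?_, ?_⟩
      · rcases le_or_gt m a with h2 | h2
        · rw [hv1 m h2, ht1 m h2]
          exact H.near m (by omega)
        · rw [hv2 m h2, ht2 m h2]
          exact H.near _ (by omega)
      · rcases lt_trichotomy m a with h2 | rfl | h2
        · rw [ht1 m h2.le, ht1 (m + 1) h2]
          exact H.mono m (by omega)
        · rw [ht1 m le_rfl, ht2 (m + 1) (by omega), hea]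
          exact H.monot (by omega) (by omega)
        · rw [ht2 m h2, ht2 (m + 1) (by omega), show m + 1 + (b - a) = m + (b - a) + 1 by ring]
          exact H.mono _ (by omega)
      · rcases lt_trichotomy m a with h2 | rfl | h2
        · rw [ht1 m h2.le, ht1 (m + 1) h2]
          exact H.step m (by omega)
        · rw [ht1 m le_rfl, ht2 (m + 1) (by omega), hea]
          have := H.small hh hτ hsep (m := b) (by omega)
          linarith
        · rw [ht2 m h2, ht2 (m + 1) (by omega), show m + 1 + (b - a) = m + (b - a) + 1 by ring]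
          exact H.step _ (by omega)
      · rcases lt_trichotomy m a with h2 | rfl | h2
        · rw [hv1 m h2.le, hv1 (m + 1) h2]
          exact H.adj m (by omega)
        · rw [hv1 m le_rfl, hv2 (m + 1) (by omega), hea, he]
          exact H.adj b (by omega)
        · rw [hv2 m h2, hv2 (m + 1) (by omega), show m + 1 + (b - a) = m + (b - a) + 1 by ring]
          exact H.adj _ (by omega)
      · rw [hv1 0 (Nat.zero_le _), hv2 _ (by omega), hend]
        exact H.closed
      · rw [ht1 0 (Nat.zero_le _), ht2 _ (by omega), hend]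
        exact H.low
      · rw [ht1 0 (Nat.zero_le _), ht2 _ (by omega), hend]
        exact H.high
    have := hmin _ _ _ hC
    omega
  · -- the part between the two visits is a shorter chain
    rw [abs_lt] at h1
    have hC : Ch c h (b - a) (fun m => v (m + a)) (fun m => t (m + a)) := by
      refine ⟨fun m hm => H.near _ (by omega), fun m hm => ?_, fun m hm => ?_, fun m hm => ?_,
        ?_, ?_, ?_⟩
      · have := H.mono (m + a) (by omega)
        rwa [show m + a + 1 = m + 1 + a by ring] at this
      · have := H.step (m + a) (by omega)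
        rwa [show m + a + 1 = m + 1 + a by ring] at this
      · have := H.adj (m + a) (by omega)
        rwa [show m + a + 1 = m + 1 + a by ring] at this
      · show v (b - a + a) = v (0 + a)
        rw [Nat.sub_add_cancel hab.le, zero_add, he]
      · show t (0 + a) + Real.pi < t (b - a + a)
        rw [Nat.sub_add_cancel hab.le, zero_add]
        linarith
      · show t (b - a + a) < t (0 + a) + 3 * Real.pi
        rw [Nat.sub_add_cancel hab.le, zero_add]
        linarith
    have := hmin _ _ _ hC
    omega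

end Min

end Vale.Agent.P167.H634.Apx
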