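import Vale.Agent.P167.H174.Sum

/-!
# P167, general `q`: the Jordan theorem for polygons of the square lattice

`exists_encloses`: a simple closed polygon of the square lattice encloses a finite set of faces, in
one of its two orientations.
-/

set_option autoImplicit false

namespace Vale.Agent.P167.H634.Apx

open Finset
open Vale.Agent.P167.E6 (IsPolygon Encloses dir face)
open Vale.Agent.P167.H174 (dir_injective)

/-- The contribution of the step from `a` to `b` to the crossing number of the ray to the right of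
the face `F`. -/
def g (F a b : ℤ × ℤ) : ℤ :=
  (if F.1 < a.1 ∧ a.1 = b.1 ∧ a.2 = F.2 ∧ b.2 = F.2 + 1 then 1 else 0) -
    (if F.1 < a.1 ∧ a.1 = b.1 ∧ a.2 = F.2 + 1 ∧ b.2 = F.2 then 1 else 0)

/-- The signed indicator of the edge `v w`. -/
def e (v w a b : ℤ × ℤ) : ℤ :=
  (if a = v ∧ b = w then 1 else 0) - (if a = w ∧ b = v then 1 else 0)

theorem e_symm (v w a b : ℤ × ℤ) : e w v a b = - e v w a b := by
  unfold e
  ring

theorem fin4 (r : Fin 4) : r = 0 ∨ r = 1 ∨ r = 2 ∨ r = 3 := by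
  fin_cases r <;> simp

theorem dir0 (a : ℤ × ℤ) : a + dir 0 = (a.1 + 1, a.2) := by
  ext <;> simp [dir]

theorem dir1 (a : ℤ × ℤ) : a + dir 1 = (a.1, a.2 + 1) := by
  ext <;> simp [dir]

theorem dir2 (a : ℤ × ℤ) : a + dir 2 = (a.1 - 1, a.2) := by
  ext <;> simp [dir, sub_eq_add_neg]

theorem dir3 (a : ℤ × ℤ) : a + dir 3 = (a.1, a.2 - 1) := by
  ext <;> simp [dir, sub_eq_add_neg]

theorem g0 (F a : ℤ × ℤ) : g F a (a.1 + 1, a.2) = 0 := by
  unfold g
  rw [if_neg (by rintro ⟨h1, h2, h3, h4⟩; simp only at h2; omega),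
    if_neg (by rintro ⟨h1, h2, h3, h4⟩; simp only at h2; omega), sub_zero]

theorem g2 (F a : ℤ × ℤ) : g F a (a.1 - 1, a.2) = 0 := by
  unfold g
  rw [if_neg (by rintro ⟨h1, h2, h3, h4⟩; simp only at h2; omega),
    if_neg (by rintro ⟨h1, h2, h3, h4⟩; simp only at h2; omega), sub_zero]

theorem g1 (F a : ℤ × ℤ) : g F a (a.1, a.2 + 1) = if F.1 < a.1 ∧ a.2 = F.2 then 1 else 0 := by
  unfold g
  rw [if_neg (c := F.1 < a.1 ∧ a.1 = a.1 ∧ a.2 = F.2 + 1 ∧ a.2 + 1 = F.2)
    (by rintro ⟨h1, h2, h3, h4⟩; omega), sub_zero]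
  refine if_congr ?_ rfl rfl
  constructor
  · rintro ⟨h1, h2, h3, h4⟩
    exact ⟨h1, h3⟩
  · rintro ⟨h1, h3⟩
    exact ⟨h1, rfl, h3, by rw [h3]⟩

theorem g3 (F a : ℤ × ℤ) :
    g F a (a.1, a.2 - 1) = - if F.1 < a.1 ∧ a.2 = F.2 + 1 then 1 else 0 := by
  unfold g
  rw [if_neg (c := F.1 < a.1 ∧ a.1 = a.1 ∧ a.2 = F.2 ∧ a.2 - 1 = F.2 + 1)
    (by rintro ⟨h1, h2, h3, h4⟩; omega), zero_sub]
  congr 1
  refine if_congr ?_ rfl rfl
  constructor
  · rintro ⟨h1, h2, h3, h4⟩
    exact ⟨h1, h3⟩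
  · rintro ⟨h1, h3⟩
    exact ⟨h1, rfl, h3, by rw [h3]; ring⟩

theorem e_eq (v w a b : ℤ × ℤ) : e v w a b =
    (if a.1 = v.1 ∧ a.2 = v.2 ∧ b.1 = w.1 ∧ b.2 = w.2 then 1 else 0) -
      (if a.1 = w.1 ∧ a.2 = w.2 ∧ b.1 = v.1 ∧ b.2 = v.2 then 1 else 0) := by
  unfold e
  congr 1 <;> refine if_congr ?_ rfl rfl <;> rw [Prod.ext_iff, Prod.ext_iff, and_assoc]

theorem g_right (x y : ℤ) (a : ℤ × ℤ) (r : Fin 4) :
    g (x, y) a (a + dir r) - g (x + 1, y) a (a + dir r) =
      e (x + 1, y) (x + 1, y + 1) a (a + dir r) := by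
  rcases fin4 r with rfl | rfl | rfl | rfl
  · rw [dir0, g0, g0, e_eq]
    dsimp only
    rw [if_neg (by omega), if_neg (by omega)]
  · rw [dir1, g1, g1, e_eq]
    dsimp only
    rw [if_neg (c := a.1 = x + 1 ∧ a.2 = y + 1 ∧ a.1 = x + 1 ∧ a.2 + 1 = y) (by omega)]
    split_ifs <;> omega
  · rw [dir2, g2, g2, e_eq]
    dsimp only
    rw [if_neg (by omega), if_neg (by omega)]
  · rw [dir3, g3, g3, e_eq]
    dsimp only
    rw [if_neg (c := a.1 = x + 1 ∧ a.2 = y ∧ a.1 = x + 1 ∧ a.2 - 1 = y + 1) (by omega)]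
    split_ifs <;> omega

theorem g_up (x y : ℤ) (a : ℤ × ℤ) (r : Fin 4) :
    g (x, y - 1) a (a + dir r) - g (x, y) a (a + dir r) + e (x, y) (x + 1, y) a (a + dir r) =
      (if x < (a + dir r).1 ∧ (a + dir r).2 = y then 1 else 0) -
        (if x < a.1 ∧ a.2 = y then 1 else 0) := by
  rcases fin4 r with rfl | rfl | rfl | rfl
  · rw [dir0, g0, g0, e_eq]
    dsimp only
    rw [if_neg (c := a.1 = x + 1 ∧ a.2 = y ∧ a.1 + 1 = x ∧ a.2 = y) (by omega)]
    split_ifs <;> omega
  · rw [dir1, g1, g1, e_eq]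
    dsimp only
    rw [if_neg (c := a.1 = x ∧ a.2 = y ∧ a.1 = x + 1 ∧ a.2 + 1 = y) (by omega),
      if_neg (c := a.1 = x + 1 ∧ a.2 = y ∧ a.1 = x ∧ a.2 + 1 = y) (by omega)]
    split_ifs <;> omega
  · rw [dir2, g2, g2, e_eq]
    dsimp only
    rw [if_neg (c := a.1 = x ∧ a.2 = y ∧ a.1 - 1 = x + 1 ∧ a.2 = y) (by omega)]
    split_ifs <;> omega
  · rw [dir3, g3, g3, e_eq]
    dsimp only
    rw [if_neg (c := a.1 = x ∧ a.2 = y ∧ a.1 = x + 1 ∧ a.2 - 1 = y) (by omega),
      if_neg (c := a.1 = x + 1 ∧ a.2 = y ∧ a.1 = x ∧ a.2 - 1 = y) (by omega)]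
    split_ifs <;> omega

theorem g_row (F a : ℤ × ℤ) (r : Fin 4) (h : F.1 < a.1) :
    g F a (a + dir r) = (if F.2 < (a + dir r).2 then 1 else 0) - (if F.2 < a.2 then 1 else 0) := by
  rcases fin4 r with rfl | rfl | rfl | rfl
  · rw [dir0, g0]
    dsimp only
    rw [sub_self]
  · rw [dir1, g1]
    dsimp only
    split_ifs <;> omega
  · rw [dir2, g2]
    dsimp only
    rw [sub_self]
  · rw [dir3, g3]
    dsimp only
    split_ifs <;> omega

variable {n : ℕ} [NeZero n] {p : ZMod n → ℤ × ℤ}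

/-- The winding number of the polygon around the face. -/
def W (p : ZMod n → ℤ × ℤ) (F : ℤ × ℤ) : ℤ := ∑ i, g F (p i) (p (i + 1))

/-- The flow through the edge `v w`. -/
def M (p : ZMod n → ℤ × ℤ) (v w : ℤ × ℤ) : ℤ := ∑ i, e v w (p i) (p (i + 1))

theorem M_symm (v w : ℤ × ℤ) : M p w v = - M p v w := by
  unfold M
  rw [← Finset.sum_neg_distrib]
  exact Finset.sum_congr rfl fun i _ => e_symm _ _ _ _

theorem sum_diff (ψ : ℤ × ℤ → ℤ) : ∑ i, (ψ (p (i + 1)) - ψ (p i)) = 0 := by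
  rw [Finset.sum_sub_distrib, sub_eq_zero]
  exact Equiv.sum_comp (Equiv.addRight (1 : ZMod n)) fun i => ψ (p i)

theorem W_right (hp : IsPolygon p) (x y : ℤ) :
    W p (x, y) - W p (x + 1, y) = M p (x + 1, y) (x + 1, y + 1) := by
  unfold W M
  rw [← Finset.sum_sub_distrib]
  refine Finset.sum_congr rfl fun i _ => ?_
  obtain ⟨r, hr⟩ := hp.2.2 i
  rw [hr]
  exact g_right x y _ r

theorem W_up (hp : IsPolygon p) (x y : ℤ) :
    W p (x, y) - W p (x, y - 1) = M p (x, y) (x + 1, y) := by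
  have h := sum_diff (p := p) fun v => if x < v.1 ∧ v.2 = y then 1 else 0
  have h2 : ∑ i, (g (x, y - 1) (p i) (p (i + 1)) - g (x, y) (p i) (p (i + 1)) +
      e (x, y) (x + 1, y) (p i) (p (i + 1))) = 0 := by
    rw [← h]
    refine Finset.sum_congr rfl fun i _ => ?_
    obtain ⟨r, hr⟩ := hp.2.2 i
    rw [hr]
    exact g_up x y _ r
  rw [Finset.sum_add_distrib, Finset.sum_sub_distrib] at h2
  unfold W M
  linarith

/-- **The jump of the winding number.** -/
theorem jump (hp : IsPolygon p) (v : ℤ × ℤ) (r : Fin 4) :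
    W p (face v r) - W p (face v (r - 1)) = M p v (v + dir r) := by
  obtain ⟨x, y⟩ := v
  rcases fin4 r with rfl | rfl | rfl | rfl
  · have h := W_up hp x y
    have e1 : face (x, y) 0 = (x, y) := by ext <;> simp [face]
    have e2 : face (x, y) (0 - 1) = (x, y - 1) := by ext <;> simp [face, sub_eq_add_neg]
    rw [e1, e2, dir0]
    exact h
  · have h := W_right hp (x - 1) y
    rw [sub_add_cancel] at h
    have e1 : face (x, y) 1 = (x - 1, y) := by ext <;> simp [face, sub_eq_add_neg]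
    have e2 : face (x, y) (1 - 1) = (x, y) := by ext <;> simp [face]
    rw [e1, e2, dir1]
    exact h
  · have h := W_up hp (x - 1) y
    rw [sub_add_cancel, ← neg_inj, neg_sub, ← M_symm] at h
    have e1 : face (x, y) 2 = (x - 1, y - 1) := by ext <;> simp [face, sub_eq_add_neg]
    have e2 : face (x, y) (2 - 1) = (x - 1, y) := by
      show face (x, y) 1 = _
      ext <;> simp [face, sub_eq_add_neg]
    rw [e1, e2, dir2]
    exact h
  · have h := W_right hp (x - 1) (y - 1)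
    rw [sub_add_cancel, sub_add_cancel, ← neg_inj, neg_sub, ← M_symm] at h
    have e1 : face (x, y) 3 = (x, y - 1) := by ext <;> simp [face, sub_eq_add_neg]
    have e2 : face (x, y) (3 - 1) = (x - 1, y - 1) := by
      show face (x, y) 2 = _
      ext <;> simp [face, sub_eq_add_neg]
    rw [e1, e2, dir3]
    exact h

theorem M_one (hp : IsPolygon p) {v w : ℤ × ℤ} (h : ∃ i, p i = v ∧ p (i + 1) = w) :
    M p v w = 1 := by
  obtain ⟨i, rfl, rfl⟩ := h
  unfold M e
  rw [Finset.sum_sub_distrib, Finset.sum_eq_single i, Finset.sum_eq_zero]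
  · simp
  · intro j _
    rw [if_neg]
    rintro ⟨h1, h2⟩
    have h3 := hp.2.1 h1
    have h4 := hp.2.1 h2
    rw [h3] at h4
    have h5 : ((2 : ℕ) : ZMod n) = 0 := by
      have : i + 1 + 1 - i = 0 := by rw [h4]; ring
      push_cast
      linear_combination this
    rw [ZMod.natCast_eq_zero_iff] at h5
    have := Nat.le_of_dvd (by norm_num) h5
    have := hp.1
    omega
  · intro j _ hj
    rw [if_neg]
    rintro ⟨h1, -⟩
    exact hj (hp.2.1 h1)
  · intro h
    exact absurd (Finset.mem_univ i) h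

theorem M_zero {v w : ℤ × ℤ} (h : ¬ ∃ i, p i = v ∧ p (i + 1) = w)
    (h' : ¬ ∃ i, p i = w ∧ p (i + 1) = v) : M p v w = 0 := by
  unfold M e
  refine Finset.sum_eq_zero fun i _ => ?_
  rw [if_neg fun h1 => h ⟨i, h1⟩, if_neg fun h1 => h' ⟨i, h1⟩, sub_zero]

theorem M_neg (hp : IsPolygon p) {v w : ℤ × ℤ} (h : ∃ i, p i = w ∧ p (i + 1) = v) :
    M p v w = -1 := by
  rw [M_symm, M_one hp h]

/-- The winding number vanishes on the right, above and below. -/
theorem W_zero {F : ℤ × ℤ} (h : ∀ i, (p i).1 ≤ F.1 ∨ (p i).2 ≤ F.2 ∧ (p (i + 1)).2 ≤ F.2 ∨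
    F.2 < (p i).2 ∧ F.2 < (p (i + 1)).2) : W p F = 0 := by
  unfold W g
  refine Finset.sum_eq_zero fun i _ => ?_
  have := h i
  rw [if_neg, if_neg, sub_zero]
  · rintro ⟨h1, h2, h3, h4⟩
    omega
  · rintro ⟨h1, h2, h3, h4⟩
    omega

/-- The winding number vanishes on the left. -/
theorem W_left (hp : IsPolygon p) {F : ℤ × ℤ} (h : ∀ i, F.1 < (p i).1) : W p F = 0 := by
  rw [← sum_diff (p := p) fun v => if F.2 < v.2 then 1 else 0]
  unfold W
  refine Finset.sum_congr rfl fun i _ => ?_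
  obtain ⟨r, hr⟩ := hp.2.2 i
  rw [hr]
  exact g_row F _ r (h i)

/-- The step from a vertex of the polygon in another direction is not in the polygon. -/
theorem M_side (hp : IsPolygon p) {i : ZMod n} {r s t : Fin 4} (hr : p (i + 1) = p i + dir r)
    (hs : p (i + 1 + 1) = p (i + 1) + dir s) (h1 : t ≠ s) (h2 : t ≠ r + 2) :
    M p (p (i + 1)) (p (i + 1) + dir t) = 0 := by
  refine M_zero ?_ ?_
  · rintro ⟨j, h3, h4⟩
    have h5 := hp.2.1 h3
    rw [h5, hs] at h4
    exact h1 (dir_injective (add_left_cancel h4)).symm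
  · rintro ⟨j, h3, h4⟩
    have h5 := add_right_cancel (hp.2.1 h4)
    rw [h5, hr, add_assoc] at h3
    have h6 : dir r + dir t = 0 := by
      have := h3.symm
      rwa [add_eq_left] at this
    have h7 := H174.dir_add_two r
    rw [← h7] at h6
    exact h2 (dir_injective (add_left_cancel h6))

theorem f4a : ∀ r s : Fin 4, s ≠ r + 2 → s = r + 1 ∨ s = r ∨ s = r - 1 := by decide

theorem f4b : ∀ r : Fin 4, r + 1 ≠ r := by decide

theorem f4c : ∀ r : Fin 4, r + 1 ≠ r + 2 := by decide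

theorem f4d : ∀ r : Fin 4, r + 1 ≠ r - 1 := by decide

theorem f4e : ∀ r : Fin 4, r ≠ r - 1 := by decide

theorem f4f : ∀ r : Fin 4, r ≠ r + 2 := by decide

/-- The winding number on the left side is constant along the polygon. -/
theorem left_step (hp : IsPolygon p) {i : ZMod n} {r s : Fin 4} (hr : p (i + 1) = p i + dir r)
    (hs : p (i + 1 + 1) = p (i + 1) + dir s) :
    W p (face (p (i + 1)) s) = W p (face (p i) r) := by
  have h0 : face (p i) r = face (p (i + 1)) (r + 1) := by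
    rw [hr]
    obtain ⟨x, y⟩ := p i
    rcases fin4 r with rfl | rfl | rfl | rfl
    · ext <;> simp [face, dir]
    · show face (x, y) 1 = face ((x, y) + dir 1) 2
      ext <;> simp [face, dir]
    · show face (x, y) 2 = face ((x, y) + dir 2) 3
      ext <;> simp [face, dir]
    · show face (x, y) 3 = face ((x, y) + dir 3) 0
      ext <;> simp [face, dir]
  have hne : s ≠ r + 2 := by
    rintro rfl
    have h1 : p (i + 1 + 1) = p i := by
      rw [hs, hr, add_assoc, H174.dir_add_two, add_zero]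
    have h2 := hp.2.1 h1
    have h5 : ((2 : ℕ) : ZMod n) = 0 := by
      have : i + 1 + 1 - i = 0 := by rw [h2]; ring
      push_cast
      linear_combination this
    rw [ZMod.natCast_eq_zero_iff] at h5
    have := Nat.le_of_dvd (by norm_num) h5
    have := hp.1
    omega
  rw [h0]
  have hj : ∀ t, t ≠ s → t ≠ r + 2 →
      W p (face (p (i + 1)) t) = W p (face (p (i + 1)) (t - 1)) := by
    intro t h1 h2
    have h3 := jump hp (p (i + 1)) t
    rw [M_side hp hr hs h1 h2] at h3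
    linarith
  have hcases : s = r + 1 ∨ s = r ∨ s = r - 1 := f4a r s hne
  rcases hcases with h | h | h
  · rw [h]
  · have h1 := hj (r + 1) (by rw [h]; exact f4b r) (f4c r)
    rw [add_sub_cancel_right] at h1
    rw [h, h1]
  · have h1 := hj (r + 1) (by rw [h]; exact f4d r) (f4c r)
    have h2 := hj r (by rw [h]; exact f4e r) (f4f r)
    rw [add_sub_cancel_right] at h1
    rw [h, h1, h2]

end Vale.Agent.P167.H634.Apx
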