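import Vale.Agent.P167.H634.Apx.Sha
import Vale.Agent.P167.H634.Sch.Sch
import Vale.Agent.P167.H446.Rado
import Vale.Agent.P167.QT.OnE

/-!
# P167, general `q`, route (C): [POLY], approximation of marked domains by polygonal domains

* `mulH a`: the multiplication by `a` as a homeomorphism of the plane; `pos_mul`: it preserves the
  orientation;
* `exists_param`: strictly increasing parametrisations of lattice polygons close to the curve;
* `exists_model`: every positive marked domain is approximated by marked domains bounded by polygons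
  of the lattice of the sites of the squares, the target in an open side.
-/

set_option autoImplicit false

namespace Vale.Agent.P167.H634.Apx

open Set Metric Topology Filter
open Vale.Agent.P167.E6 (IsPolygon Encloses Approx dir face pt region PF6 PV6 PF6_per
  continuous_PF6)
open Vale.Agent.P167.H397.Q (IncOn)
open Vale.Agent.P153.R2.Final (circ toC dom)
open Vale.Agent.P153.R2.R1 (JCurve per_int DC FC homC FC_eq DC_eq jcurve_FC toCH toCH_apply toC_circ)
open Vale.Agent.P167.H199.C (HasApx)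

variable {Φ : (ℝ × ℝ) ≃ₜ (ℝ × ℝ)}

/-! ### Multiplication by a complex number -/

/-- The multiplication by `a ≠ 0`. -/
noncomputable def mulH (a : ℂ) (ha : a ≠ 0) : (ℝ × ℝ) ≃ₜ (ℝ × ℝ) :=
  (toCH.trans (Homeomorph.mulLeft₀ a ha)).trans toCH.symm

theorem toC_mulH (a : ℂ) (ha : a ≠ 0) (x : ℝ × ℝ) : toC (mulH a ha x) = a * toC x := by
  rw [← toCH_apply, ← toCH_apply]
  show toCH (toCH.symm (a * toCH x)) = _
  rw [Homeomorph.apply_symm_apply]

theorem FC_mulH (a : ℂ) (ha : a ≠ 0) (t : ℝ) : FC (Φ.trans (mulH a ha)) t = a * FC Φ t :=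
  toC_mulH a ha _

theorem pos_mul (h : Pos Φ) (a : ℂ) (ha : a ≠ 0) : Pos (Φ.trans (mulH a ha)) := by
  obtain ⟨z, hz, θ, h1, h2, h3⟩ := h
  refine ⟨a * z, ?_, fun t => θ t + Complex.log a, h1.add continuousOn_const, fun t ht => ?_, ?_⟩
  · obtain ⟨x, ⟨w, hw, rfl⟩, rfl⟩ := hz
    exact ⟨_, ⟨w, hw, rfl⟩, toC_mulH a ha _⟩
  · rw [Complex.exp_add, h2 t ht, Complex.exp_log ha, FC_mulH]
    ring
  · rw [← h3]
    ring

/-! ### Strictly increasing parametrisations -/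

theorem uniformContinuous_of_per {f : ℝ → ℂ} (hf : Continuous f) {T : ℝ} (hT : 0 < T)
    (hp : Function.Periodic f T) : UniformContinuous f := by
  rw [Metric.uniformContinuous_iff]
  intro ε hε
  have hc : UniformContinuousOn f (Icc (-T) (2 * T)) :=
    isCompact_Icc.uniformContinuousOn_of_continuous hf.continuousOn
  rw [Metric.uniformContinuousOn_iff] at hc
  obtain ⟨τ, hτ, hc⟩ := hc ε hε
  refine ⟨min τ T, lt_min hτ hT, fun {x y} hxy => ?_⟩
  obtain ⟨h1, h2⟩ := toIcoMod_mem_Ico' hT x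
  set c : ℤ := toIcoDiv hT 0 x with hc'
  have h3 : toIcoMod hT 0 x = x - c * T := by
    rw [toIcoMod, zsmul_eq_mul]
  rw [h3] at h1 h2
  have e1 : f (x - c * T) = f x := hp.sub_int_mul_eq c
  have e2 : f (y - c * T) = f y := hp.sub_int_mul_eq c
  rw [Real.dist_eq, abs_lt] at hxy
  have h4 := min_le_left τ T
  have h5 := min_le_right τ T
  rw [← e1, ← e2]
  refine hc _ ⟨by linarith, by linarith⟩ _ ⟨by linarith [hxy.2], by linarith [hxy.1]⟩ ?_
  rw [Real.dist_eq, abs_lt]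
  constructor <;> linarith [hxy.1, hxy.2]

/-- Moving the parameter of a polygon by at most `1`. -/
theorem dist_move {n : ℕ} {p : ZMod n → ℤ × ℤ} {δ : ℝ} (hδ : 0 < δ) (hp : IsPolygon p) (x : ℝ)
    {a : ℝ} (ha0 : 0 ≤ a) (ha1 : a < 1) : dist (PF6 p δ (x + a)) (PF6 p δ x) ≤ 3 * δ := by
  have h1 := H446.dist_PF6 hδ hp x
  have h2 := H446.dist_PF6 hδ hp (x + a)
  have h3 : ⌊x + a⌋ = ⌊x⌋ ∨ ⌊x + a⌋ = ⌊x⌋ + 1 := by
    have h4 : ⌊x⌋ ≤ ⌊x + a⌋ := Int.floor_le_floor (by linarith)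
    have h5 : ⌊x + a⌋ < ⌊x⌋ + 2 := by
      rw [Int.floor_lt]
      push_cast
      linarith [Int.lt_floor_add_one x]
    omega
  have h4 : dist (PV6 p δ ⌊x + a⌋) (PV6 p δ ⌊x⌋) ≤ δ := by
    rcases h3 with h | h
    · rw [h, dist_self]
      exact hδ.le
    · rw [h, dist_comm, H446.dist_PV6 hδ hp]
  have h5 := dist_triangle (PF6 p δ (x + a)) (PV6 p δ ⌊x + a⌋) (PF6 p δ x)
  have h6 := dist_triangle (PV6 p δ ⌊x + a⌋) (PV6 p δ ⌊x⌋) (PF6 p δ x)
  rw [dist_comm (PV6 p δ ⌊x⌋)] at h6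
  linarith

theorem exists_param_aux {m : ℕ} (hm' : 0 < m) {q : ZMod m → ℤ × ℤ} (hq : IsPolygon q)
    {lam : ℝ} (hlam : 0 < lam)
    {c : ℝ → ℂ} {ε τ : ℝ} (hτ : 0 < τ) (hunif : ∀ x y, |x - y| < τ → dist (c x) (c y) < ε)
    {u : ℝ → ℝ} (hu : Continuous u) (hum : Monotone u)
    (huN : ∀ x, u (x + m) = u x + 2 * Real.pi) (hu0 : u 0 = 0)
    (hud : ∀ x, dist (PF6 q lam x) (c (u x)) ≤ ε) :
    ∃ (σ : ℝ → ℝ) (j : ℕ), Continuous σ ∧ StrictMono σ ∧
      (∀ t, σ (t + 2 * Real.pi) = σ t + m) ∧ 0 ≤ σ 0 ∧ (j : ℝ) < σ Real.pi ∧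
      σ Real.pi < j + 1 ∧ ∀ t, dist (PF6 q lam (σ t)) (c t) < 3 * lam + 2 * ε := by
  have hpi := Real.pi_pos
  have hm : (0 : ℝ) < m := by exact_mod_cast hm'
  -- the strict version
  set θ : ℝ := min (1 / 2) (τ / (4 * Real.pi)) with hθ
  have hθ0 : 0 < θ := lt_min (by norm_num) (by positivity)
  have hθ1 : θ ≤ 1 / 2 := min_le_left _ _
  have hθ2 : θ * (2 * Real.pi) < τ := by
    have h1 : θ ≤ τ / (4 * Real.pi) := min_le_right _ _
    have h2 : θ * (2 * Real.pi) ≤ τ / (4 * Real.pi) * (2 * Real.pi) :=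
      mul_le_mul_of_nonneg_right h1 (by positivity)
    have h3 : τ / (4 * Real.pi) * (2 * Real.pi) = τ / 2 := by
      field_simp
      ring
    linarith
  set v : ℝ → ℝ := fun x => (1 - θ) * u x + θ * (2 * Real.pi * x / m) with hv
  have hvc : Continuous v := by
    simp only [hv]
    fun_prop
  have hvm : StrictMono v := by
    intro x y hxy
    have h1 := hum hxy.le
    have h2 : 2 * Real.pi * x / m < 2 * Real.pi * y / m := by
      apply div_lt_div_of_pos_right _ hm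
      exact mul_lt_mul_of_pos_left hxy (by positivity)
    simp only [hv]
    nlinarith
  have hvN : ∀ x, v (x + m) = v x + 2 * Real.pi := by
    intro x
    simp only [hv]
    rw [huN]
    field_simp
    ring
  have hv0 : v 0 = 0 := by simp [hv, hu0]
  have hclose : ∀ x, |v x - u x| ≤ θ * (2 * Real.pi) := by
    intro x
    -- `d x = 2 π x / m - u x` is periodic
    set d : ℝ → ℝ := fun x => 2 * Real.pi * x / m - u x with hd
    have hdp : Function.Periodic d m := by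
      intro x
      simp only [hd]
      rw [huN]
      field_simp
      ring
    have hdb : ∀ x : ℝ, 0 ≤ x → x < m → |d x| ≤ 2 * Real.pi := by
      intro x h1 h2
      have h3 : 0 ≤ u x := hu0 ▸ hum h1
      have h4 : u x ≤ 2 * Real.pi := by
        have h5 := hum h2.le
        have h6 := huN 0
        rw [zero_add, hu0, zero_add] at h6
        rw [← h6]
        exact h5
      have h5 : 0 ≤ 2 * Real.pi * x / m := by positivity
      have h6 : 2 * Real.pi * x / m ≤ 2 * Real.pi := by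
        rw [div_le_iff₀ hm]
        exact mul_le_mul_of_nonneg_left h2.le (by positivity)
      simp only [hd]
      rw [abs_le]
      constructor <;> linarith
    obtain ⟨h1, h2⟩ := toIcoMod_mem_Ico' hm x
    have h3 : d (toIcoMod hm 0 x) = d x := by
      rw [toIcoMod, zsmul_eq_mul]
      exact hdp.sub_int_mul_eq _
    have h4 := hdb _ h1 h2
    rw [h3] at h4
    have h5 : v x - u x = θ * d x := by
      simp only [hv, hd]
      ring
    rw [h5, abs_mul, abs_of_pos hθ0]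
    exact mul_le_mul_of_nonneg_left h4 hθ0.le
  have hsurj := Sch.surjective_of_step hvc (a := m) (c := 2 * Real.pi) (by positivity) hvN
  set e := StrictMono.orderIsoOfSurjective v hvm hsurj with he
  have he1 : ∀ t, v (e.symm t) = t := fun t => e.apply_symm_apply t
  have hec : Continuous e.symm := e.symm.continuous
  have hem : StrictMono e.symm := e.symm.strictMono
  have heN : ∀ t, e.symm (t + 2 * Real.pi) = e.symm t + m := by
    intro t
    apply hvm.injective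
    rw [he1, hvN, he1]
  have he0 : e.symm 0 = 0 := by
    apply hvm.injective
    rw [he1, hv0]
  have hepi : 0 < e.symm Real.pi := by
    rw [← he0]
    exact hem hpi
  -- the shift
  obtain ⟨a, ha0, ha1, hae⟩ : ∃ a : ℝ, 0 ≤ a ∧ a < 1 ∧ ∃ j : ℕ, (j : ℝ) < e.symm Real.pi + a ∧
      e.symm Real.pi + a < j + 1 := by
    have h1 := Nat.floor_le hepi.le
    have h2 := Nat.lt_floor_add_one (e.symm Real.pi)
    rcases h1.lt_or_eq with h3 | h3
    · exact ⟨0, le_rfl, one_pos, ⌊e.symm Real.pi⌋₊, by linarith, by linarith⟩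
    · exact ⟨1 / 2, by norm_num, by norm_num, ⌊e.symm Real.pi⌋₊, by linarith, by linarith⟩
  obtain ⟨j, hj1, hj2⟩ := hae
  refine ⟨fun t => e.symm t + a, j, hec.add continuous_const,
    fun x y hxy => by have := hem hxy; simpa using this, fun t => ?_, ?_, hj1, hj2, fun t => ?_⟩
  · show e.symm (t + 2 * Real.pi) + a = e.symm t + a + m
    rw [heN]
    ring
  · show 0 ≤ e.symm 0 + a
    rw [he0]
    linarith
  · have h1 := dist_move hlam hq (e.symm t) ha0 ha1
    have h2 := hud (e.symm t)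
    have h3 := hunif (u (e.symm t)) t (by
      have := hclose (e.symm t)
      rw [he1, abs_sub_comm] at this
      linarith)
    have h4 := dist_triangle (PF6 q lam (e.symm t + a)) (PF6 q lam (e.symm t)) (c t)
    have h5 := dist_triangle (PF6 q lam (e.symm t)) (c (u (e.symm t))) (c t)
    show dist (PF6 q lam (e.symm t + a)) (c t) < _
    linarith

/-- **Parametrisation of a lattice polygon which is close to the curve.** -/
theorem exists_param (h : Pos Φ) {ε : ℝ} (hε : 0 < ε) :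
    ∃ (n : ℕ) (q : ZMod n → ℤ × ℤ) (S : Finset (ℤ × ℤ)) (lam : ℝ) (σ : ℝ → ℝ) (j : ℕ),
      IsPolygon q ∧ Encloses q S ∧ 0 < lam ∧ Continuous σ ∧ StrictMono σ ∧
      (∀ t, σ (t + 2 * Real.pi) = σ t + n) ∧ 0 ≤ σ 0 ∧ (j : ℝ) < σ Real.pi ∧
      σ Real.pi < j + 1 ∧ ∀ t, dist (PF6 q lam (σ t)) (FC Φ t) < ε := by
  have hJ := jcurve_FC Φ
  obtain ⟨δ, hδ0, hδ1⟩ : ∃ δ : ℕ → ℝ, (∀ n, 0 < δ n) ∧ Tendsto δ atTop (𝓝 0) :=
    ⟨fun n : ℕ => 1 / ((n : ℝ) + 1), fun n => by positivity,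
      tendsto_one_div_add_atTop_nhds_zero_nat⟩
  obtain ⟨N, k, p, S, H⟩ := approx_of_pos h hδ0 hδ1
  have hunif : UniformContinuous (FC Φ) := uniformContinuous_of_per hJ.cont hJ.pos hJ.per
  obtain ⟨τ, hτ, hunif⟩ := Metric.uniformContinuous_iff.1 hunif (ε / 4) (by positivity)
  have hδ : ∀ᶠ n in atTop, δ n < ε / 12 := hδ1.eventually (gt_mem_nhds (by positivity))
  obtain ⟨n, hn, u, hu, hum, huN, hu0, -, hud⟩ :=
    (hδ.and (H446.approx_close6 H (ε := ε / 4) (by positivity))).exists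
  obtain ⟨hlam, hk0, hkN, hp, hS⟩ := H.1 n
  have hN : 0 < N n := by omega
  have hun : ∀ x y, |x - y| < τ → dist (FC Φ x) (FC Φ y) < ε / 4 := fun x y hxy =>
    hunif (by rw [Real.dist_eq]; exact hxy)
  obtain ⟨σ, j, h1, h2, h3, h4, h5, h6, h7⟩ := exists_param_aux (m := N n) hN (q := p n) hp
    (lam := δ n) hlam (c := FC Φ) (ε := ε / 4) hτ hun hu hum huN hu0 hud
  refine ⟨N n, p n, S n, δ n, σ, j, hp, hS, hlam, h1, h2, h3, h4, h5, h6, fun t => ?_⟩
  have := h7 t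
  linarith

theorem PF6_smul {n : ℕ} (q : ZMod n → ℤ × ℤ) (lam x : ℝ) :
    PF6 q lam x = (lam : ℂ) * PF6 q 1 x := by
  simp only [PF6, Vale.Agent.P153.R2.R1.pl, PV6]
  rw [Complex.real_smul, Complex.real_smul, Complex.real_smul, Complex.real_smul]
  push_cast
  ring

theorem one_sub_I_ne : ((1 - Complex.I) / 2 : ℂ) ≠ 0 := by
  intro h
  have := congrArg Complex.re h
  norm_num at this

/-- **Approximation by polygonal domains.** -/
theorem exists_model (h : Pos Φ) {ε : ℝ} (hε : 0 < ε) :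
    ∃ (n : ℕ) (q : ZMod n → ℤ × ℤ) (S : Finset (ℤ × ℤ)) (lam : ℝ) (σ : ℝ → ℝ) (j : ℕ) (r : Fin 4)
      (Φ' : (ℝ × ℝ) ≃ₜ (ℝ × ℝ)),
      IsPolygon q ∧ Encloses q S ∧ 0 < lam ∧ Continuous σ ∧ StrictMono σ ∧
      (∀ t, σ (t + 2 * Real.pi) = σ t + n) ∧ 0 ≤ σ 0 ∧ (j : ℝ) < σ Real.pi ∧
      σ Real.pi < j + 1 ∧ q ((j : ZMod n) + 1) = q j + dir r ∧
      (∀ t, toC (Φ' (circ t)) = (lam : ℂ) * ((1 - Complex.I) / 2) * PF6 q 1 (σ t)) ∧
      ∀ t, dist (toC (Φ' (circ t))) (toC (Φ (circ t))) < ε := by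
  have ha : ((1 - Complex.I) / 2 : ℂ)⁻¹ ≠ 0 := inv_ne_zero one_sub_I_ne
  obtain ⟨n, q, S, lam, σ, j, hq, hS, hlam, h1, h2, h3, h4, h5, h6, h7⟩ :=
    exists_param (pos_mul h _ ha) hε
  obtain ⟨r, hr⟩ := hq.2.2 (j : ZMod n)
  obtain ⟨Φ₁, hΦ₁, -⟩ := Sch.sch_poly one_pos hq hS h1 h2 h3
  have hb : (lam : ℂ) * ((1 - Complex.I) / 2) ≠ 0 :=
    mul_ne_zero (by exact_mod_cast hlam.ne') one_sub_I_ne
  have e1 : ∀ t, toC ((Φ₁.trans (mulH _ hb)) (circ t)) =
      (lam : ℂ) * ((1 - Complex.I) / 2) * PF6 q 1 (σ t) := by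
    intro t
    rw [← hΦ₁ t]
    exact toC_mulH _ _ _
  refine ⟨n, q, S, lam, σ, j, r, Φ₁.trans (mulH _ hb), hq, hS, hlam, h1, h2, h3, h4, h5, h6, hr,
    e1, fun t => ?_⟩
  have h8 := h7 t
  rw [FC_mulH, PF6_smul] at h8
  rw [e1]
  have e2 : (lam : ℂ) * ((1 - Complex.I) / 2) * PF6 q 1 (σ t) - FC Φ t =
      ((1 - Complex.I) / 2) * ((lam : ℂ) * PF6 q 1 (σ t) - ((1 - Complex.I) / 2)⁻¹ * FC Φ t) := by
    rw [mul_sub, ← mul_assoc ((1 - Complex.I) / 2 : ℂ) (((1 - Complex.I) / 2 : ℂ)⁻¹),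
      mul_inv_cancel₀ one_sub_I_ne]
    ring
  rw [dist_eq_norm] at h8
  show dist _ (FC Φ t) < ε
  rw [dist_eq_norm, e2, norm_mul]
  have h9 : ‖((1 - Complex.I) / 2 : ℂ)‖ ≤ 1 := by
    rw [norm_div]
    have h10 := norm_sub_le (1 : ℂ) Complex.I
    rw [norm_one, Complex.norm_I] at h10
    rw [show ‖(2 : ℂ)‖ = 2 from by norm_num]
    linarith
  calc _ ≤ 1 * ‖(lam : ℂ) * PF6 q 1 (σ t) - ((1 - Complex.I) / 2)⁻¹ * FC Φ t‖ :=
        mul_le_mul_of_nonneg_right h9 (norm_nonneg _)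
    _ < ε := by rw [one_mul]; exact h8

end Vale.Agent.P167.H634.Apx
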