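import Vale.Agent.P167.H634.Apx.Idx
import Vale.Agent.P167.H634.Apx.Jor2
import Vale.Agent.P167.H634.Apx.Chain2

/-!
# P167, general `q`: marked domains with counterclockwise boundary curve and their lattice
approximations

* `Pos Φ`: the boundary curve of the marked domain `Φ` has winding number `1` around the points of
  the domain;
* `pos_of_approx`: it is so if there is an approximation by lattice polygons;
* `approx_of_pos`: conversely, there are then approximations for all sequences of meshes;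
* `pos_or`: `Φ` or its composition with the complex conjugation is positive;
* `pos_shift`: if `Φ` is positive then so is `z ↦ Φ (z + (0, r))`.
-/

set_option autoImplicit false

namespace Vale.Agent.P167.H634.Apx

open Set Metric Topology Filter Bornology
open Vale.Agent.P167.E6 (IsPolygon Encloses Approx dir face pt region)
open Vale.Agent.P167.H174
open Vale.Agent.P167.H397.Q (IncOn exists_incOn)
open Vale.Agent.P153.R2.Final (circ toC dom)
open Vale.Agent.P153.R2.R1 (JCurve per_int DC FC homC FC_eq DC_eq jcurve_FC isOpen_DC frontier_DC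
  toCH toCH_apply toC_circ)
open P153.TOP (LogOn hasLogOn_of_convex)

variable {Φ : (ℝ × ℝ) ≃ₜ (ℝ × ℝ)}

/-- The boundary curve of the marked domain is counterclockwise. -/
def Pos (Φ : (ℝ × ℝ) ≃ₜ (ℝ × ℝ)) : Prop :=
  ∃ z ∈ DC Φ, IncOn (FC Φ) 0 (2 * Real.pi) z (2 * Real.pi * Complex.I)

theorem exists_rho {z : ℂ} (hz : z ∈ DC Φ) :
    ∃ ρ > 0, ball z ρ ⊆ DC Φ ∧ ∀ t, ρ ≤ dist (FC Φ t) z := by
  obtain ⟨ρ, hρ, h⟩ := Metric.isOpen_iff.1 (isOpen_DC Φ) z hz
  refine ⟨ρ, hρ, h, fun t => ?_⟩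
  by_contra hcon
  push Not at hcon
  have h1 : FC Φ t ∈ frontier (DC Φ) := by
    rw [frontier_DC]
    exact mem_range_self t
  rw [(isOpen_DC Φ).frontier_eq] at h1
  exact h1.2 (h hcon)

theorem two_pi_I_ne : (2 * Real.pi * Complex.I : ℂ) ≠ 0 := Complex.two_pi_I_ne_zero

/-- **Approximated domains are positive.** -/
theorem pos_of_approx {δ : ℕ → ℝ} {N k : ℕ → ℕ} {p : ∀ n, ZMod (N n) → ℤ × ℤ}
    {S : ℕ → Finset (ℤ × ℤ)} (h : Approx Φ δ N k p S) : Pos Φ := by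
  have hJ := jcurve_FC Φ
  have hz : homC Φ 0 ∈ DC Φ := by
    rw [DC_eq]
    exact mem_image_of_mem _ (mem_ball_self one_pos)
  set z := homC Φ 0
  obtain ⟨ρ, hρ, hρ1, hρ2⟩ := exists_rho hz
  obtain ⟨d, hd⟩ := exists_incOn (y := FC Φ) (a := 0) (b := 2 * Real.pi) (z := z)
    hJ.cont.continuousOn (fun t _ h0 => by
      have := hρ2 t
      rw [h0, dist_self] at this
      linarith)
  refine ⟨z, hz, ?_⟩
  have hex := exhausts_of_approx h (closedBall z (ρ / 2))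
    ((closedBall_subset_ball (by linarith)).trans hρ1) (isCompact_closedBall _ _)
  have hsmall := h.2.1.eventually (gt_mem_nhds (show (0 : ℝ) < ρ / 8 by linarith))
  obtain ⟨n, hn1, hn2, hn3⟩ := (hex.and (hsmall.and (h.2.2 (ρ / 2) (by linarith)))).exists
  obtain ⟨h1, h2, h3, h4, h5⟩ := h.1 n
  obtain ⟨s, hs, hs0, -, hsN, hsx⟩ := hn3
  have : NeZero (N n) := ⟨by omega⟩
  have hf := dist_fl h1 z
  have hfS : fl (δ n) z ∈ S n := by
    have h6 : ((δ n : ℂ) * ctr (fl (δ n) z)) ∈ closedBall z (ρ / 2) := by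
      rw [mem_closedBall]
      linarith
    obtain ⟨g, hg, g1, g2, g3, g4⟩ := hn1 h6
    have e1 : ((δ n : ℂ) * ctr (fl (δ n) z)).re = δ n * (ctr (fl (δ n) z)).re :=
      Complex.re_ofReal_mul _ _
    have e2 : ((δ n : ℂ) * ctr (fl (δ n) z)).im = δ n * (ctr (fl (δ n) z)).im :=
      Complex.im_ofReal_mul _ _
    rw [e1] at g1 g2
    rw [e2] at g3 g4
    have h7 : ctr (fl (δ n) z) ∈ cface g :=
      ⟨le_of_mul_le_mul_left g1 h1, le_of_mul_le_mul_left g2 h1, le_of_mul_le_mul_left g3 h1,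
        le_of_mul_le_mul_left g4 h1⟩
    rw [ctr_mem h7]
    exact hg
  have h6 := inc_eq hJ.cont (T := 2 * Real.pi) (by simpa using hJ.per 0) h4 hs hs0 hsN h1
    (ρ := ρ) (ε := ρ / 2) hsx (fun t _ => hρ2 t) hf (by linarith) hd
  rw [idx_in h4 h5 hfS] at h6
  rw [← h6]
  exact hd

/-- **Lattice polygons close to a positive Jordan curve.** -/
theorem exists_pos_polygon {c : ℝ → ℂ} (hJ : JCurve c (2 * Real.pi)) {z : ℂ}
    (hz : IncOn c 0 (2 * Real.pi) z (2 * Real.pi * Complex.I)) {η : ℝ} (hη : 0 < η) :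
    ∃ h₀ : ℝ, 0 < h₀ ∧ ∀ h : ℝ, 0 < h → h ≤ h₀ → ∃ (n k : ℕ) (p : ZMod n → ℤ × ℤ) (s : ℕ → ℝ)
      (S : Finset (ℤ × ℤ)), IsPolygon p ∧ Encloses p S ∧ 0 < k ∧ k < n ∧ Monotone s ∧ s 0 = 0 ∧
      s k = Real.pi ∧ s n = 2 * Real.pi ∧ ∀ i < n, ∀ t ∈ Icc (s i) (s (i + 1)),
        dist ((h : ℂ) * pt (p i)) (c t) < η := by
  have hpi := Real.pi_pos
  obtain ⟨t₀, ht₀, hmin⟩ := (isCompact_Icc (a := (0 : ℝ)) (b := 2 * Real.pi)).exists_isMinOn
    ⟨0, ⟨le_rfl, by positivity⟩⟩ (f := fun t => dist (c t) z)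
    (hJ.cont.dist continuous_const).continuousOn
  set ρ := dist (c t₀) z with hρ
  have hρ0 : 0 < ρ := dist_pos.2 (hz.ne ht₀)
  have hρ1 : ∀ t ∈ Icc 0 (2 * Real.pi), ρ ≤ dist (c t) z := fun t ht => hmin ht
  have hη' : 0 < min η (ρ / 2) := lt_min hη (by linarith)
  obtain ⟨h₀, hh₀, H⟩ := exists_polygon hJ hη'
  refine ⟨min h₀ (ρ / 4), lt_min hh₀ (by linarith), fun h hh hhle => ?_⟩
  obtain ⟨n, k, p, s, hp, hk, hkn, hs, hs0, hsk, hsn, hsx⟩ := H h hh (hhle.trans (min_le_left _ _))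
  have : NeZero n := ⟨by omega⟩
  obtain ⟨S, hS⟩ := exists_encloses hp
  have h4 : h ≤ ρ / 4 := hhle.trans (min_le_right _ _)
  have h5 := min_le_right η (ρ / 2)
  have h6 := inc_eq hJ.cont (T := 2 * Real.pi) (by simpa using hJ.per 0) hp hs hs0 hsn hh
    (ρ := ρ) (ε := min η (ρ / 2)) hsx hρ1 (dist_fl hh z) (by linarith) hz
  have hE : Encloses p S := by
    rcases hS with hS | hS
    · exact hS
    · exfalso
      have h7 := idx_neg hp (fl h z)
      by_cases hf : fl h z ∈ S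
      · rw [idx_in (isPolygon_neg hp) hS hf, ← h6] at h7
        have h8 : (2 * Real.pi * Complex.I : ℂ) = 0 := by linear_combination h7 / 2
        exact two_pi_I_ne h8
      · rw [idx_out (isPolygon_neg hp) hS hf, ← h6] at h7
        have h8 : (2 * Real.pi * Complex.I : ℂ) = 0 := by linear_combination h7
        exact two_pi_I_ne h8
  exact ⟨n, k, p, s, S, hp, hE, hk, hkn, hs, hs0, hsk, hsn, fun i hi t ht =>
    (hsx i hi t ht).trans_le (min_le_left _ _)⟩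

/-- **Positive domains have approximations for all sequences of meshes.** -/
theorem approx_of_pos (h : Pos Φ) {δ : ℕ → ℝ} (hδ : ∀ n, 0 < δ n)
    (hδ0 : Tendsto δ atTop (𝓝 0)) :
    ∃ (N k : ℕ → ℕ) (p : ∀ n, ZMod (N n) → ℤ × ℤ) (S : ℕ → Finset (ℤ × ℤ)),
      Approx Φ δ N k p S := by
  obtain ⟨z, -, hz⟩ := h
  have hJ := jcurve_FC Φ
  have H : ∀ m : ℕ, ∃ h₀ : ℝ, 0 < h₀ ∧ ∀ h : ℝ, 0 < h → h ≤ h₀ →
      ∃ (n k : ℕ) (p : ZMod n → ℤ × ℤ) (s : ℕ → ℝ)
      (S : Finset (ℤ × ℤ)), IsPolygon p ∧ Encloses p S ∧ 0 < k ∧ k < n ∧ Monotone s ∧ s 0 = 0 ∧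
      s k = Real.pi ∧ s n = 2 * Real.pi ∧ ∀ i < n, ∀ t ∈ Icc (s i) (s (i + 1)),
        dist ((h : ℂ) * pt (p i)) (FC Φ t) < 1 / (m + 1) := fun m =>
    exists_pos_polygon hJ hz (by positivity)
  choose h₀ hh₀ H using H
  have hex : ∀ n m : ℕ, ∃ (N k : ℕ) (p : ZMod N → ℤ × ℤ) (S : Finset (ℤ × ℤ)),
      (IsPolygon p ∧ Encloses p S ∧ 0 < k ∧ k < N) ∧ (δ n ≤ h₀ m → ∃ s : ℕ → ℝ, Monotone s ∧
        s 0 = 0 ∧ s k = Real.pi ∧ s N = 2 * Real.pi ∧ ∀ i < N, ∀ t ∈ Icc (s i) (s (i + 1)),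
          dist ((δ n : ℂ) * pt (p i)) (FC Φ t) < 1 / (m + 1)) := by
    intro n m
    by_cases hc : δ n ≤ h₀ m
    · obtain ⟨N, k, p, s, S, h1, h2, h3, h4, h5⟩ := H m (δ n) (hδ n) hc
      exact ⟨N, k, p, S, ⟨h1, h2, h3, h4⟩, fun _ => ⟨s, h5⟩⟩
    · obtain ⟨N, k, p, s, S, h1, h2, h3, h4, h5⟩ := H m (h₀ m) (hh₀ m) le_rfl
      exact ⟨N, k, p, S, ⟨h1, h2, h3, h4⟩, fun h => absurd h hc⟩
  choose N k p S hex1 hex2 using hex
  classical
  set m : ℕ → ℕ := fun n => Nat.findGreatest (fun m => δ n ≤ h₀ m) n with hm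
  refine ⟨fun n => N n (m n), fun n => k n (m n), fun n => p n (m n), fun n => S n (m n),
    fun n => ⟨hδ n, (hex1 n (m n)).2.2.1, (hex1 n (m n)).2.2.2, (hex1 n (m n)).1,
      (hex1 n (m n)).2.1⟩, hδ0, fun ε hε => ?_⟩
  obtain ⟨l, hl⟩ := exists_nat_one_div_lt hε
  filter_upwards [hδ0.eventually (ge_mem_nhds (hh₀ l)), eventually_ge_atTop l] with n h1 h2
  have h3 : δ n ≤ h₀ (m n) := Nat.findGreatest_spec (P := fun m => δ n ≤ h₀ m) h2 h1
  have h4 : l ≤ m n := Nat.le_findGreatest h2 h1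
  obtain ⟨s, h5, h6, h7, h8, h9⟩ := hex2 n (m n) h3
  refine ⟨s, h5, h6, h7, h8, fun i hi t ht => (h9 i hi t ht).trans (lt_of_le_of_lt ?_ hl)⟩
  have h10 : (l : ℝ) ≤ m n := by exact_mod_cast h4
  exact one_div_le_one_div_of_le (by positivity) (by linarith)

/-- The complex conjugation. -/
noncomputable def cj : (ℝ × ℝ) ≃ₜ (ℝ × ℝ) :=
  (Homeomorph.refl ℝ).prodCongr (Homeomorph.neg ℝ)

theorem cj_apply (z : ℝ × ℝ) : cj z = (z.1, -z.2) := rfl

theorem cj_circ (t : ℝ) : cj (circ t) = circ (-t) := by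
  rw [cj_apply]
  show (Real.cos t, -Real.sin t) = (Real.cos (-t), Real.sin (-t))
  rw [Real.cos_neg, Real.sin_neg]

theorem FC_cj (t : ℝ) : FC (cj.trans Φ) t = FC Φ (-t) := by
  show toC (Φ (cj (circ t))) = toC (Φ (circ (-t)))
  rw [cj_circ]

theorem dom_cj : dom (cj.trans Φ) = dom Φ := by
  show (fun z => Φ (cj z)) '' _ = Φ '' _
  rw [← image_image]
  congr 1
  ext z
  constructor
  · rintro ⟨w, hw, rfl⟩
    show (cj w).1 ^ 2 + (cj w).2 ^ 2 < 1
    rw [cj_apply]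
    have : w.1 ^ 2 + w.2 ^ 2 < 1 := hw
    simpa using this
  · intro hz
    refine ⟨cj z, ?_, ?_⟩
    · show (cj z).1 ^ 2 + (cj z).2 ^ 2 < 1
      rw [cj_apply]
      have : z.1 ^ 2 + z.2 ^ 2 < 1 := hz
      simpa using this
    · rw [cj_apply, cj_apply, neg_neg]

/-- **One of the two orientations is positive.** -/
theorem pos_or (Φ : (ℝ × ℝ) ≃ₜ (ℝ × ℝ)) : Pos Φ ∨ Pos (cj.trans Φ) := by
  have hJ := jcurve_FC Φ
  have hpi := Real.pi_pos
  have hz : homC Φ 0 ∈ DC Φ := by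
    rw [DC_eq]
    exact mem_image_of_mem _ (mem_ball_self one_pos)
  set z := homC Φ 0
  obtain ⟨ρ, hρ, hρ1, hρ2⟩ := exists_rho hz
  obtain ⟨d, hd⟩ := exists_incOn (y := FC Φ) (a := 0) (b := 2 * Real.pi) (z := z)
    hJ.cont.continuousOn (fun t _ h0 => by
      have := hρ2 t
      rw [h0, dist_self] at this
      linarith)
  -- the winding number is not zero
  have hd0 : d ≠ 0 := by
    rintro rfl
    obtain ⟨ℓ, hℓ, hℓ', hℓ0⟩ := hd
    refine not_logOn_frontier Φ hz ?_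
    have h1 : LogOn (sphere (0 : ℂ) 1) (fun w => homC Φ w - z) :=
      logOn_circle hℓ (fun t ht => by rw [hℓ' t ht, FC_eq]) (sub_eq_zero.1 hℓ0).symm
    refine (h1.comp (L := range (FC Φ)) (φ := (homC Φ).symm)
      (homC Φ).symm.continuous.continuousOn ?_).congr ?_
    · rintro _ ⟨t, rfl⟩
      rw [FC_eq, Homeomorph.symm_apply_apply, mem_sphere_zero_iff_norm,
        Complex.norm_exp_ofReal_mul_I]
    · intro w _
      simp
  obtain ⟨h₀, hh₀, H⟩ := exists_polygon hJ (show 0 < ρ / 2 by linarith)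
  obtain ⟨n, k, p, s, hp, hk, hkn, hs, hs0, hsk, hsn, hsx⟩ := H (min h₀ (ρ / 4))
    (lt_min hh₀ (by linarith)) (min_le_left _ _)
  have hh : 0 < min h₀ (ρ / 4) := lt_min hh₀ (by linarith)
  have hh' := min_le_right h₀ (ρ / 4)
  have : NeZero n := ⟨by omega⟩
  obtain ⟨S, hS⟩ := exists_encloses hp
  have h6 := inc_eq hJ.cont (T := 2 * Real.pi) (by simpa using hJ.per 0) hp hs hs0 hsn hh
    (ρ := ρ) (ε := ρ / 2) hsx (fun t _ => hρ2 t) (dist_fl hh z) (by linarith) hd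
  rcases hS with hS | hS
  · left
    by_cases hf : fl (min h₀ (ρ / 4)) z ∈ S
    · rw [idx_in hp hS hf] at h6
      rw [h6] at hd
      exact ⟨z, hz, hd⟩
    · rw [idx_out hp hS hf] at h6
      exact absurd h6 hd0
  · right
    have h7 := idx_neg hp (fl (min h₀ (ρ / 4)) z)
    by_cases hf : fl (min h₀ (ρ / 4)) z ∈ S
    · rw [idx_in (isPolygon_neg hp) hS hf, ← h6] at h7
      refine ⟨z, ?_, ?_⟩
      · show z ∈ toC '' dom (cj.trans Φ)
        rw [dom_cj]
        exact hz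
      · obtain ⟨θ, h1, h2, h3⟩ := hd
        refine ⟨fun t => θ (2 * Real.pi - t), ?_, fun t ht => ?_, ?_⟩
        · exact h1.comp (by fun_prop) fun t ht => ⟨by linarith [ht.2], by linarith [ht.1]⟩
        · rw [h2 _ ⟨by linarith [ht.2], by linarith [ht.1]⟩, FC_cj, ← hJ.per (-t)]
          congr 2
          ring
        · simp only [sub_self, sub_zero]
          rw [← neg_sub, h3, ← h7]
    · rw [idx_out (isPolygon_neg hp) hS hf, ← h6] at h7
      exact absurd (neg_eq_zero.1 h7.symm) hd0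

/-- **Shifts of the disc preserve the orientation.** -/
theorem pos_shift (h : Pos Φ) (r : ℝ) :
    Pos ((Homeomorph.addRight ((0, r) : ℝ × ℝ)).trans Φ) := by
  obtain ⟨z, hz, hd⟩ := h
  have hpi := Real.pi_pos
  rw [DC_eq] at hz
  obtain ⟨w, hw, rfl⟩ := hz
  set Ψ : (ℝ × ℝ) ≃ₜ (ℝ × ℝ) := (Homeomorph.addRight ((0, r) : ℝ × ℝ)).trans Φ with hΨ
  have hwn : ‖w‖ < 1 := mem_ball_zero_iff.1 hw
  have hhom : ∀ v, homC Ψ v = homC Φ (v + (r : ℂ) * Complex.I) := by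
    intro v
    show toCH (Φ (toCH.symm v + (0, r))) = toCH (Φ (toCH.symm (v + (r : ℂ) * Complex.I)))
    congr 2
    apply toCH.injective
    rw [toCH.apply_symm_apply]
    apply Complex.ext
    · show v.re + 0 = (v + (r : ℂ) * Complex.I).re
      simp
    · show v.im + r = (v + (r : ℂ) * Complex.I).im
      simp
  -- the homotopy
  set f : ℝ × ℝ → ℂ := fun x => homC Φ (Complex.exp (x.2 * Complex.I) + (x.1 * r : ℝ) * Complex.I) -
    homC Φ (w + (x.1 * r : ℝ) * Complex.I) with hf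
  have hfc : Continuous f := by
    have := (homC Φ).continuous
    simp only [hf]
    fun_prop
  have hf0 : ∀ x, f x ≠ 0 := by
    intro x h0
    have h1 := (homC Φ).injective (sub_eq_zero.1 h0)
    have h2 : Complex.exp (x.2 * Complex.I) = w := add_right_cancel h1
    have h3 := congrArg norm h2
    rw [Complex.norm_exp_ofReal_mul_I] at h3
    linarith
  obtain ⟨F, hFc, hF⟩ := hasLogOn_of_convex (convex_univ (𝕜 := ℝ) (E := ℝ × ℝ)) f
    hfc.continuousOn (fun x _ => hf0 x)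
  have hFc' : Continuous F := continuousOn_univ.1 hFc
  have hper : ∀ x : ℝ, f (x, 2 * Real.pi) = f (x, 0) := by
    intro x
    simp only [hf]
    congr 3
    push_cast
    rw [Complex.exp_two_pi_mul_I, zero_mul, Complex.exp_zero]
  have hconst := P153.TOP.log_diff_const (A := (univ : Set ℝ)) isPreconnected_univ
    (F := fun x : ℝ => F (x, 2 * Real.pi)) (G := fun x : ℝ => F (x, 0))
    (hFc'.comp (by fun_prop)).continuousOn (hFc'.comp (by fun_prop)).continuousOn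
    (fun x _ => by rw [hF _ (mem_univ _), hF _ (mem_univ _), hper])
    (mem_univ (0 : ℝ)) (mem_univ (1 : ℝ))
  -- at `0`
  have h0 : IncOn (FC Φ) 0 (2 * Real.pi) (homC Φ w) (F (0, 2 * Real.pi) - F (0, 0)) := by
    refine ⟨fun t => F (0, t), (hFc'.comp (by fun_prop)).continuousOn, fun t _ => ?_, rfl⟩
    rw [hF _ (mem_univ _), FC_eq]
    simp [hf]
  have h1 := IncOn.unique (by positivity) hd h0
  refine ⟨homC Ψ w, ?_, fun t => F (1, t), (hFc'.comp (by fun_prop)).continuousOn, fun t _ => ?_,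
    ?_⟩
  · rw [DC_eq]
    exact mem_image_of_mem _ hw
  · rw [hF _ (mem_univ _), FC_eq, hhom, hhom]
    simp [hf]
  · rw [h1]
    exact hconst.symm

end Vale.Agent.P167.H634.Apx
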