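import Vale.Agent.P167.H634.Apx.SPoly
import Vale.Agent.P167.QG.Ne

/-!
# P167, general `q`, route (C): [POLY] for the class `StairU`
-/

set_option autoImplicit false

namespace Vale.Agent.P167.H634.Apx

open Vale.Agent.P167.H199.C (S_poly)

/-- **[POLY]**: every marked domain which has an approximation is approximated by marked domains
which have approximations in `StairU` for all sequences of meshes. -/
theorem s_poly : S_poly QT.StairU := by
  refine s_poly_of ?_
  intro m q S₀ hq hE σ hc hm hσ ha j hj1 hj2 r hj lam hlam Φ hΦ δ hδ h0
  exact QG.Apx.approx_stair hq hE hc hm hσ ha hj1 hj2 hj hlam hΦ hδ h0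

end Vale.Agent.P167.H634.Apx
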