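import Vale.Agent.P167.H174.Exh

/-!
# P167, general `q`: the winding number of a lattice polygon around the centre of a face
-/

set_option autoImplicit false

namespace Vale.Agent.P167.H634.Apx

open Finset
open Vale.Agent.P167.E6 (IsPolygon Encloses dir face pt)
open Vale.Agent.P167.H174

/-- The centre of the face. -/
noncomputable def ctr (f : ℤ × ℤ) : ℂ := ⟨f.1 + 1 / 2, f.2 + 1 / 2⟩

theorem ctr_mem {f g : ℤ × ℤ} (h : ctr f ∈ cface g) : f = g := by
  obtain ⟨h1, h2, h3, h4⟩ := h
  have e1 : (ctr f).re = f.1 + 1 / 2 := rfl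
  have e2 : (ctr f).im = f.2 + 1 / 2 := rfl
  rw [e1] at h1 h2
  rw [e2] at h3 h4
  have a1 : (g.1 : ℝ) < f.1 + 1 := by linarith
  have a2 : (f.1 : ℝ) < g.1 + 1 := by linarith
  have a3 : (g.2 : ℝ) < f.2 + 1 := by linarith
  have a4 : (f.2 : ℝ) < g.2 + 1 := by linarith
  have b1 : g.1 < f.1 + 1 := by exact_mod_cast a1
  have b2 : f.1 < g.1 + 1 := by exact_mod_cast a2
  have b3 : g.2 < f.2 + 1 := by exact_mod_cast a3
  have b4 : f.2 < g.2 + 1 := by exact_mod_cast a4
  exact Prod.ext (by omega) (by omega)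

theorem J_ctr (f : ℤ × ℤ) (r : Fin 4) : J (ctr f) f r = (Real.pi / 2 : ℝ) * Complex.I := by
  have h1 : (pt (cor f r + dir r) - ctr f) / (pt (cor f r) - ctr f) = Complex.I := by
    have h2 : pt (cor f r) - ctr f ≠ 0 := by
      intro h
      have h3 := congrArg Complex.re h
      obtain ⟨a, b⟩ := f
      fin_cases r <;> simp [cor, pt, ctr] at h3 <;> norm_num at h3 <;> linarith
    rw [div_eq_iff h2]
    obtain ⟨a, b⟩ := f
    fin_cases r <;> apply Complex.ext <;> simp [cor, dir, pt, ctr] <;> ring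
  rw [J, h1, Complex.log_I]
  push_cast
  ring

/-- the ratio of two consecutive vertices seen from a centre is not real -/
theorem ratio_slit (f v : ℤ × ℤ) (r : Fin 4) :
    pt v - ctr f ≠ 0 ∧ (pt (v + dir r) - ctr f) / (pt v - ctr f) ∈ Complex.slitPlane := by
  have hne : ∀ v : ℤ × ℤ, (pt v - ctr f).re ≠ 0 ∧ (pt v - ctr f).im ≠ 0 := by
    intro v
    constructor
    · intro h
      have h1 : (v.1 : ℝ) - (f.1 + 1 / 2) = 0 := h
      have h2 : (2 * v.1 : ℝ) = 2 * f.1 + 1 := by linarith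
      have h3 : 2 * v.1 = 2 * f.1 + 1 := by exact_mod_cast h2
      omega
    · intro h
      have h1 : (v.2 : ℝ) - (f.2 + 1 / 2) = 0 := h
      have h2 : (2 * v.2 : ℝ) = 2 * f.2 + 1 := by linarith
      have h3 : 2 * v.2 = 2 * f.2 + 1 := by exact_mod_cast h2
      omega
  have h0 : pt v - ctr f ≠ 0 := by
    intro h
    exact (hne v).1 (by rw [h]; rfl)
  refine ⟨h0, Complex.mem_slitPlane_iff.2 (Or.inr ?_)⟩
  rw [Complex.div_im]
  have h2 : 0 < Complex.normSq (pt v - ctr f) := Complex.normSq_pos.2 h0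
  rw [← sub_div, Ne, div_eq_zero_iff]
  rintro (h | h)
  · have e1 : (pt (v + dir r) - ctr f).re = (pt v - ctr f).re + (dir r).1 := by
      show ((v + dir r).1 : ℝ) - (f.1 + 1 / 2) = (v.1 : ℝ) - (f.1 + 1 / 2) + (dir r).1
      rw [Prod.fst_add]
      push_cast
      ring
    have e2 : (pt (v + dir r) - ctr f).im = (pt v - ctr f).im + (dir r).2 := by
      show ((v + dir r).2 : ℝ) - (f.2 + 1 / 2) = (v.2 : ℝ) - (f.2 + 1 / 2) + (dir r).2
      rw [Prod.snd_add]
      push_cast
      ring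
    rw [e1, e2] at h
    have h3 := hne v
    fin_cases r
    · refine h3.2 ?_
      simp [dir] at h
      rw [Complex.sub_im]
      linear_combination -h
    · refine h3.1 ?_
      simp [dir] at h
      rw [Complex.sub_re]
      linear_combination h
    · refine h3.2 ?_
      simp [dir] at h
      rw [Complex.sub_im]
      linear_combination h
    · refine h3.1 ?_
      simp [dir] at h
      rw [Complex.sub_re]
      linear_combination -h
  · exact h2.ne' h

variable {n : ℕ} [NeZero n] {p : ZMod n → ℤ × ℤ} {S : Finset (ℤ × ℤ)}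

/-- The index of the polygon. -/
noncomputable def idx (p : ZMod n → ℤ × ℤ) (ζ : ℂ) : ℂ :=
  ∑ i : ZMod n, Complex.log ((pt (p (i + 1)) - ζ) / (pt (p i) - ζ))

theorem idx_out (hp : IsPolygon p) (hS : Encloses p S) {f : ℤ × ℤ} (hf : f ∉ S) :
    idx p (ctr f) = 0 :=
  sum_log_eq_zero hp hS fun g hg h => hf (by rw [ctr_mem h]; exact hg)

open Classical in
theorem idx_in (hp : IsPolygon p) (hS : Encloses p S) {f₀ : ℤ × ℤ} (hf₀ : f₀ ∈ S) :
    idx p (ctr f₀) = 2 * Real.pi * Complex.I := by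
  set ζ := ctr f₀ with hζdef
  have hζ : ∀ f, f ≠ f₀ → ζ ∉ cface f := fun f hf h => hf (ctr_mem h).symm
  unfold idx
  choose r hr using hp.2.2
  have h1 : ∑ i : ZMod n, Complex.log ((pt (p (i + 1)) - ζ) / (pt (p i) - ζ)) =
      ∑ x ∈ (S ×ˢ (univ : Finset (Fin 4))).filter (fun x => x.1 + nb x.2 ∉ S), J ζ x.1 x.2 := by
    refine Finset.sum_bij (fun i _ => (face (p i) (r i), r i)) ?_ ?_ ?_ ?_
    · intro i _
      have h := (hS (p i) (r i)).1 ⟨i, rfl, hr i⟩
      rw [face_sub_one] at h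
      simp only [mem_filter, mem_product, mem_univ, and_true]
      exact h
    · intro i _ j _ h
      have h2 : r i = r j := (Prod.ext_iff.1 h).2
      have h3 : face (p i) (r i) = face (p j) (r j) := (Prod.ext_iff.1 h).1
      apply hp.2.1
      rw [← cor_face (p i) (r i), h3, h2, cor_face]
    · rintro ⟨f, s⟩ hx
      simp only [mem_filter, mem_product, mem_univ, and_true] at hx
      obtain ⟨i, hi, hi'⟩ := (hS (cor f s) s).2 ⟨by rw [face_cor]; exact hx.1, by
        rw [face_sub_one, face_cor]; exact hx.2⟩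
      refine ⟨i, mem_univ _, ?_⟩
      have h4 : r i = s := by
        apply dir_injective
        have := hr i
        rw [hi', hi] at this
        exact (add_left_cancel this).symm
      rw [h4, hi, face_cor]
    · intro i _
      rw [J, cor_face, ← hr i]
  have h2 : ∑ x ∈ S ×ˢ (univ : Finset (Fin 4)), J ζ x.1 x.2 = 2 * Real.pi * Complex.I := by
    rw [Finset.sum_product, Finset.sum_eq_single f₀]
    · rw [Finset.sum_congr rfl fun x _ => J_ctr f₀ x, Finset.sum_const, Finset.card_univ,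
        Fintype.card_fin, nsmul_eq_mul]
      push_cast
      ring
    · intro f _ hf
      exact J_sum (hζ f hf)
    · intro h
      exact absurd hf₀ h
  have hJnb : ∀ (f : ℤ × ℤ) (s : Fin 4), J ζ f s + J ζ (f + nb s) (s + 2) = 0 := by
    intro f s
    by_cases hf : f = f₀
    · have hne : f + nb s ≠ f₀ := by
        rw [hf]
        intro h
        have h3 : nb s = 0 := by rwa [add_eq_left] at h
        revert h3
        fin_cases s <;> simp [nb]
      have h3 := J_nb (hζ _ hne) (s + 2)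
      rw [nb_nb] at h3
      have h4 : s + 2 + 2 = s := by fin_cases s <;> rfl
      rw [h4] at h3
      rw [h3]
      ring
    · rw [J_nb (hζ f hf), add_neg_cancel]
  have h3 : ∑ x ∈ (S ×ˢ (univ : Finset (Fin 4))).filter (fun x => ¬ (x.1 + nb x.2 ∉ S)),
      J ζ x.1 x.2 = 0 := by
    refine Finset.sum_involution (fun x _ => (x.1 + nb x.2, x.2 + 2)) ?_ ?_ ?_ ?_
    · rintro ⟨f, s⟩ hx
      exact hJnb f s
    · rintro ⟨f, s⟩ hx _ h
      have h5 : s + 2 = s := (Prod.ext_iff.1 h).2
      revert h5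
      fin_cases s <;> decide
    · rintro ⟨f, s⟩ hx
      simp only [mem_filter, mem_product, mem_univ, and_true, not_not] at hx ⊢
      exact ⟨hx.2, by rw [nb_nb]; exact hx.1⟩
    · rintro ⟨f, s⟩ hx
      ext1
      · exact nb_nb f s
      · show s + 2 + 2 = s
        fin_cases s <;> rfl
  have h4 := Finset.sum_filter_add_sum_filter_not (S ×ˢ (univ : Finset (Fin 4)))
    (fun x => x.1 + nb x.2 ∉ S) (fun x => J ζ x.1 x.2)
  rw [h3, add_zero, h2] at h4
  rw [h1]
  exact h4

/-- The index of the reversed polygon. -/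
theorem idx_neg (hp : IsPolygon p) (f : ℤ × ℤ) :
    idx (fun i => p (-i)) (ctr f) = - idx p (ctr f) := by
  unfold idx
  rw [← Finset.sum_neg_distrib]
  refine Finset.sum_bij (fun i _ => -(i + 1)) (fun _ _ => Finset.mem_univ _)
    (fun i _ j _ h => add_right_cancel (neg_injective h))
    (fun i _ => ⟨-(i + 1), Finset.mem_univ _, by ring⟩) fun i _ => ?_
  have e1 : -(i + 1) + 1 = -i := by ring
  rw [e1]
  obtain ⟨r, hr⟩ := hp.2.2 (-(i + 1))
  rw [e1] at hr
  obtain ⟨h1, h2⟩ := ratio_slit f (p (-(i + 1))) r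
  rw [← hr] at h2
  rw [← Complex.log_inv _ (Complex.mem_slitPlane_iff_arg.1 h2).1, inv_div]

omit [NeZero n] in
theorem isPolygon_neg (hp : IsPolygon p) : IsPolygon (fun i => p (-i)) := by
  refine ⟨hp.1, fun a b hab => neg_injective (hp.2.1 hab), fun i => ?_⟩
  obtain ⟨r, hr⟩ := hp.2.2 (-(i + 1))
  have e1 : -(i + 1) + 1 = -i := by ring
  rw [e1] at hr
  refine ⟨r + 2, ?_⟩
  show p (-(i + 1)) = p (-i) + dir (r + 2)
  rw [hr, add_assoc, dir_add_two, add_zero]

end Vale.Agent.P167.H634.Apx
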